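import Vale.Agent.P011.H373.LocNorm

/-!
Local norms at a place where the extension has a factor of degree one.
-/

open NumberField IsDedekindDomain Polynomial Module
open scoped IntermediateField

namespace Vale.Agent.P011.H929

open Vale.Agent.P011.Arith (Z0 exists_below val_above val_lt_val_iff)
open Vale.Agent.P011.H373

variable {p : ℕ} {k E : Type} [Field k] [NumberField k] [Field E] [NumberField E] [Algebra k E]

/-- If the minimal polynomial of a generator has a root in the completion then every element is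
locally a norm. -/
theorem loc_root' (hp : 0 < p) (hE : finrank k E = p) (v : HeightOneSpectrum (𝓞 k))
    {f : (𝓞 k)[X]} (hf : f.Monic) (hdeg : f.natDegree = p)
    {θ : E} (hmp : minpoly k θ = f.map (algebraMap (𝓞 k) k)) (hroot : ApxRoot v f) {b : k} (hb : b ≠ 0) {γ : Z0} (hγ : γ ≠ 0) :
    ∃ e : E, v.valuation k (b / Algebra.norm k e - 1) < γ := by
  have hfd : FiniteDimensional k E := Module.finite_of_finrank_pos (by rw [hE]; exact hp)
  set ι := algebraMap (𝓞 k) k with hι
  have hιi : Function.Injective ι := FaithfulSMul.algebraMap_injective (𝓞 k) k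
  -- the discriminant
  have hsep : (f.map ι).Separable := by
    rw [← hmp]; exact Algebra.IsSeparable.isSeparable k θ
  have hd0 : resultant f (derivative f) ≠ 0 := by
    intro h0
    have h1 : resultant (f.map ι) (derivative (f.map ι)) ≠ 0 := resultant_ne_zero _ _ hsep
    apply h1
    rw [derivative_map, res_map ι hf, h0, map_zero]
  obtain ⟨A, B, -, -, hAB⟩ := exists_mul_add_mul_eq_C_resultant f (derivative f) le_rfl le_rfl
    (Or.inl (by rw [hdeg]; exact hp.ne'))
  set d := resultant f (derivative f) with hd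
  -- make `b` integral
  obtain ⟨b₁, b₂, hb₂, hb12⟩ := IsFractionRing.div_surjective (A := 𝓞 k) b
  rw [← hι] at hb12
  have hb₂0 : b₂ ≠ 0 := nonZeroDivisors.ne_zero hb₂
  have hb₁0 : b₁ ≠ 0 := by
    rintro rfl
    rw [map_zero, zero_div] at hb12
    exact hb hb12.symm
  set B₀ : 𝓞 k := b₁ * b₂ ^ (p - 1) with hB₀
  have hB₀0 : B₀ ≠ 0 := mul_ne_zero hb₁0 (pow_ne_zero _ hb₂0)
  have hbB : b = ι B₀ / ι b₂ ^ p := by
    rw [← hb12, hB₀, map_mul, map_pow]
    have h1 : (ι b₂) ^ p = ι b₂ ^ (p - 1) * ι b₂ := by rw [← pow_succ, Nat.sub_add_cancel hp]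
    have h2 : ι b₂ ≠ 0 := (map_ne_zero_iff ι hιi).mpr hb₂0
    rw [h1]
    field_simp
  set w := v.valuation k with hw
  have hne : ∀ x : 𝓞 k, x ≠ 0 → w (ι x) ≠ 0 := fun x hx =>
    (Valuation.ne_zero_iff w).mpr ((map_ne_zero_iff ι hιi).mpr hx)
  set δ : Z0 := min γ 1 * (w (ι B₀) * w (ι d) ^ p) with hδ
  have hm0 : min γ 1 ≠ 0 := by
    rcases min_choice γ 1 with h | h <;> rw [h]
    · exact hγ
    · exact one_ne_zero
  have hδ0 : δ ≠ 0 := mul_ne_zero hm0 (mul_ne_zero (hne _ hB₀0) (pow_ne_zero _ (hne _ hd0)))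
  have hdle : w (ι d) ≤ 1 := val_int_le v d
  have hδd : δ ≤ w (ι d) := by
    calc δ ≤ 1 * (1 * w (ι d) ^ p) := by
          rw [hδ]
          exact mul_le_mul' (min_le_right _ _) (mul_le_mul' (val_int_le v B₀) le_rfl)
      _ = w (ι d) ^ p := by rw [one_mul, one_mul]
      _ ≤ w (ι d) ^ 1 := pow_le_pow_right_of_le_one' hdle hp
      _ = w (ι d) := pow_one _
  obtain ⟨α, hα⟩ := hroot δ hδ0
  have hder : w (ι d) ≤ w (ι ((derivative f).eval α)) := by
    have h1 : ι d = ι (f.eval α * A.eval α) + ι ((derivative f).eval α * B.eval α) := by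
      rw [← map_add, ← eval_mul, ← eval_mul, ← eval_add, hAB, eval_C]
    have h2 : w (ι (f.eval α * A.eval α)) < w (ι d) := by
      rw [map_mul, map_mul]
      calc w (ι (f.eval α)) * w (ι (A.eval α)) ≤ w (ι (f.eval α)) * 1 :=
            mul_le_mul' le_rfl (val_int_le v _)
        _ < w (ι d) := by rw [mul_one]; exact hα.trans_le hδd
    have h3 : w (ι ((derivative f).eval α * B.eval α)) = w (ι d) := by
      have e : ι ((derivative f).eval α * B.eval α) = ι d - ι (f.eval α * A.eval α) := by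
        rw [h1]; ring
      rw [e, Valuation.map_sub_eq_of_lt_left _ h2]
    rw [← h3, map_mul, map_mul]
    calc w (ι ((derivative f).eval α)) * w (ι (B.eval α)) ≤
          w (ι ((derivative f).eval α)) * 1 := mul_le_mul' le_rfl (val_int_le v _)
      _ = _ := mul_one _
  obtain ⟨G, q, hG⟩ := res_root hf (by rw [hdeg]; exact hp.ne') α B₀
  set c := (derivative f).eval α with hc
  set R := resultant f G with hR
  rw [hdeg] at hG
  have hw6 : w (ι (B₀ * c ^ p)) = w (ι B₀) * w (ι c) ^ p := by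
    rw [map_mul ι B₀ (c ^ p), map_mul w, map_pow, map_pow]
  have hc0 : c ≠ 0 := by
    intro h0
    rw [h0, map_zero, map_zero] at hder
    exact hne d hd0 (le_antisymm hder zero_le)
  have h5 : w (ι (f.eval α * q)) < min γ 1 * w (ι (B₀ * c ^ p)) := by
    rw [map_mul, map_mul]
    calc w (ι (f.eval α)) * w (ι q) ≤ w (ι (f.eval α)) * 1 := mul_le_mul' le_rfl (val_int_le v _)
      _ = w (ι (f.eval α)) := mul_one _
      _ < δ := hα
      _ ≤ min γ 1 * w (ι (B₀ * c ^ p)) := by
        rw [hδ, hw6]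
        exact mul_le_mul' le_rfl (mul_le_mul' le_rfl (pow_le_pow_left' hder p))
  have h5' : w (ι (f.eval α * q)) < w (ι (B₀ * c ^ p)) := by
    refine h5.trans_le ?_
    calc min γ 1 * w (ι (B₀ * c ^ p)) ≤ 1 * w (ι (B₀ * c ^ p)) :=
          mul_le_mul' (min_le_right _ _) le_rfl
      _ = _ := one_mul _
  have h6 : w (ι R) = w (ι (B₀ * c ^ p)) := by
    rw [hG, map_add, Valuation.map_add_eq_of_lt_left _ h5']
  have hR0 : ι R ≠ 0 := by
    intro h0
    rw [h0, map_zero] at h6
    exact hne _ (mul_ne_zero hB₀0 (pow_ne_zero p hc0)) h6.symm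
  have hιc : ι c ≠ 0 := (map_ne_zero_iff ι hιi).mpr hc0
  have hιb : ι b₂ ≠ 0 := (map_ne_zero_iff ι hιi).mpr hb₂0
  refine ⟨algebraMap k E (ι c * ι b₂)⁻¹ * aeval θ (G.map ι), ?_⟩
  have h7 : Algebra.norm k (aeval θ (G.map ι)) = ι R := by
    rw [norm_eq_resultant (by rw [hmp, hf.natDegree_map, hdeg, hE]) _ natDegree_map_le, hmp,
      resultant_map_map, hE, hR, hdeg]
  rw [map_mul, Algebra.norm_algebraMap, hE, h7]
  have h8 : b / ((ι c * ι b₂)⁻¹ ^ p * ι R) - 1 = - ι (f.eval α * q) / ι R := by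
    rw [hbB]
    exact quot_aux hιb hιc hR0 (by rw [hG, map_add, map_mul ι B₀ (c ^ p), map_pow])
  rw [h8, map_div₀, Valuation.map_neg, h6]
  have h9 : w (ι (B₀ * c ^ p)) ≠ 0 := hne _ (mul_ne_zero hB₀0 (pow_ne_zero p hc0))
  rw [div_lt_iff₀ (zero_lt_iff.mpr h9)]
  exact h5.trans_le (mul_le_mul' (min_le_left _ _) le_rfl)


/-- **Local norms at a place with a factor of degree one**: every element of the base field is a
norm up to a factor close to one. -/
theorem loc_hom (v : HeightOneSpectrum (𝓞 k)) (h : Nonempty (E →ₐ[k] v.adicCompletion k)) {b : k}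
    (hb : b ≠ 0) {γ : Z0} (hγ : γ ≠ 0) :
    ∃ e : E, v.valuation k (b / Algebra.norm k e - 1) < γ := by
  obtain ⟨φ⟩ := h
  have hfd : FiniteDimensional k E := Module.Finite.of_restrictScalars_finite ℚ k E
  let pb := Field.powerBasisOfFiniteOfSeparable k E
  have hQ : Algebra.IsAlgebraic ℤ E := (IsFractionRing.comap_isAlgebraic_iff (K := ℚ)).mpr
    inferInstance
  obtain ⟨y, hy0, hy⟩ := Algebra.IsAlgebraic.exists_integral_multiples ℤ ({pb.gen} : Finset E)
  have hy1 : IsIntegral ℤ (y • pb.gen) := hy _ (by simp)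
  set θ : E := y • pb.gen with hθ
  have hint : IsIntegral (𝓞 k) θ := hy1.tower_top
  have hintk : IsIntegral k θ := Algebra.IsIntegral.isIntegral θ
  have hmp : minpoly k θ = (minpoly (𝓞 k) θ).map (algebraMap (𝓞 k) k) :=
    minpoly.isIntegrallyClosed_eq_field_fractions' k hint
  have hmon : (minpoly (𝓞 k) θ).Monic := minpoly.monic hint
  have hyk : (y : k) ≠ 0 := by exact_mod_cast hy0
  have htop : k⟮θ⟯ = ⊤ := by
    have h1 : pb.gen ∈ k⟮θ⟯ := by
      have h2 : pb.gen = algebraMap k E ((y : k)⁻¹) * θ := by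
        have hyE : (y : E) ≠ 0 := by exact_mod_cast hy0
        rw [hθ, zsmul_eq_mul, map_inv₀, map_intCast, inv_mul_cancel_left₀ hyE]
      rw [h2]
      exact mul_mem (IntermediateField.algebraMap_mem _ _)
        (IntermediateField.mem_adjoin_simple_self k θ)
    have h3 : Algebra.adjoin k {pb.gen} = ⊤ := pb.adjoin_gen_eq_top
    rw [eq_top_iff]
    intro x _
    have h4 : x ∈ Algebra.adjoin k {pb.gen} := h3 ▸ Algebra.mem_top
    have h5 : Algebra.adjoin k {pb.gen} ≤ (k⟮θ⟯).toSubalgebra :=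
      Algebra.adjoin_le (Set.singleton_subset_iff.mpr h1)
    exact h5 h4
  have hdeg : (minpoly (𝓞 k) θ).natDegree = finrank k E := by
    rw [← hmon.natDegree_map (algebraMap (𝓞 k) k), ← hmp, ← IntermediateField.adjoin.finrank hintk,
      htop, IntermediateField.finrank_top']
  refine loc_root' (p := finrank k E) finrank_pos rfl v hmon hdeg hmp ?_ hb hγ
  refine apxRoot_of_root hmon (α := φ θ) ?_
  rw [← eval₂_map, ← hmp, ← aeval_def, Polynomial.aeval_algHom_apply, minpoly.aeval, map_zero]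

end Vale.Agent.P011.H929
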