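import Vale.Agent.P011.Even.NormCont
import Vale.Agent.P011.H511.HasseApprox
import Vale.Agent.P011.Hey.H63.NormBC

/-!
Norms of local norms are local norms, for Kummer extensions of odd prime degree (the quadratic
case is `Even.NormLoc`).
-/

open NumberField IsDedekindDomain Polynomial Module
open scoped TensorProduct

namespace Vale.Agent.P011.H929

open Vale.Agent.P011.Arith (Z0 exists_above exists_below below_unique ov_finite ov approxVal
  finite_ne_one val_lt_val_iff val_le_one_iff)
open Vale.Agent.P011.ArP Vale.Agent.P011.H373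
open Vale.Agent.P011.H511 (close_mul close_inv one_of_close)

variable {p : ℕ} {F : Type} [Field F] [NumberField F]

/-- Radii at most one. -/
theorem exists_small (ε : HeightOneSpectrum (𝓞 F) → Fˣ) :
    ∃ e : HeightOneSpectrum (𝓞 F) → Fˣ,
      (∀ v : HeightOneSpectrum (𝓞 F), v.valuation F (e v : F) ≤ 1) ∧
      ∀ v : HeightOneSpectrum (𝓞 F), v.valuation F (e v : F) ≤ v.valuation F (ε v : F) := by
  have h1 : ∀ v : HeightOneSpectrum (𝓞 F), ∃ e : Fˣ, v.valuation F (e : F) ≤ 1 ∧
      v.valuation F (e : F) ≤ v.valuation F (ε v : F) := by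
    intro v
    by_cases h : v.valuation F (ε v : F) ≤ 1
    · exact ⟨ε v, h, le_rfl⟩
    · exact ⟨1, by simp, by simpa using (not_le.mp h).le⟩
  choose e he using h1
  exact ⟨e, fun v => (he v).1, fun v => (he v).2⟩

/-- An element that is a local norm at finitely many places is close to a norm. -/
theorem near_norm (M : Mu p F) (a c : Fˣ) {S : Set (HeightOneSpectrum (𝓞 F))} (hS : S.Finite)
    (h : ∀ v ∈ S, c ∈ NF M a ⊔ LS M (v.valuation F)) (ε : HeightOneSpectrum (𝓞 F) → Fˣ) :
    ∃ z ∈ NF M a, ∀ v ∈ S,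
      v.valuation F (((c / z : Fˣ) : F) - 1) < v.valuation F (ε v : F) := by
  classical
  by_cases ha : a ∈ Pw p F
  · refine ⟨c, by rw [NF_eq_top M ha]; exact Subgroup.mem_top _, fun v _ => ?_⟩
    rw [div_self', Units.val_one, sub_self, map_zero]
    exact zero_lt_iff.mpr ((Valuation.ne_zero_iff _).mpr (ε v).ne_zero)
  rcases S.eq_empty_or_nonempty with rfl | ⟨v₀, hv₀⟩
  · exact ⟨1, Subgroup.one_mem _, by simp⟩
  obtain ⟨L, _, _, _, θ, σ, Q⟩ := exists_kum M a ha
  have := Q.fd
  obtain ⟨e, he1, he2⟩ := exists_small ε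
  have hg0 : ∀ v : HeightOneSpectrum (𝓞 F), v.valuation F (e v : F) ≠ 0 := fun v =>
    (Valuation.ne_zero_iff _).mpr (e v).ne_zero
  choose η hη using fun v : HeightOneSpectrum (𝓞 F) =>
    Even.norm_near_one (E := L) v (e v) (he1 v)
  -- local norms
  have hloc : ∀ v : HeightOneSpectrum (𝓞 F), ∃ g : Lˣ, v ∈ S →
      v.valuation F ((c : F) / Algebra.norm F (g : L) - 1) < v.valuation F (e v : F) := by
    intro v
    by_cases hv : v ∈ S
    · obtain ⟨z, hz, l, hl, hc⟩ := Subgroup.mem_sup.mp (h v hv)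
      obtain ⟨t, ht⟩ := LS_newton' hl (hg0 v)
      obtain ⟨g, hg⟩ := norm_of_mem_NF Q hz
      have hgne : g ≠ 0 := by
        rintro rfl
        rw [Algebra.norm_zero] at hg
        exact z.ne_zero hg.symm
      have htne : algebraMap F L (t : F) ≠ 0 := (_root_.map_ne_zero _).mpr t.ne_zero
      refine ⟨Units.mk0 (g * algebraMap F L t) (mul_ne_zero hgne htne), fun _ => ?_⟩
      rw [Units.val_mk0, map_mul, hg, Algebra.norm_algebraMap, Q.deg, ← hc, Units.val_mul,
        mul_div_mul_left _ _ z.ne_zero]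
      exact ht
    · exact ⟨1, fun h => absurd h hv⟩
  choose g hg using hloc
  choose be hbe using fun w : HeightOneSpectrum (𝓞 L) => exists_below (F := F) w
  have hbe' : ∀ {v : HeightOneSpectrum (𝓞 F)} {w : HeightOneSpectrum (𝓞 L)},
      w.asIdeal.comap (algebraMap (𝓞 F) (𝓞 L)) = v.asIdeal → be w = v := fun h =>
    below_unique (hbe _) h
  have hgw : ∀ (w : HeightOneSpectrum (𝓞 L)) (v : HeightOneSpectrum (𝓞 F)),
      w.valuation L (g v : L) ≠ 0 := fun w v => (Valuation.ne_zero_iff _).mpr (g v).ne_zero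
  have hηw : ∀ (w : HeightOneSpectrum (𝓞 L)) (v : HeightOneSpectrum (𝓞 F)),
      w.valuation L (algebraMap F L (η v : F)) ≠ 0 := fun w v =>
    (Valuation.ne_zero_iff _).mpr ((_root_.map_ne_zero _).mpr (η v).ne_zero)
  obtain ⟨y, hy, -⟩ := approxVal (F := L) (ov_finite (E := L) hS).toFinset
    (fun w => (g (be w) : L))
    (fun w => w.valuation L (g (be w) : L) *
      min 1 (w.valuation L (algebraMap F L (η (be w) : F))))
    (fun w _ => mul_ne_zero (hgw _ _) (by
      rcases min_choice 1 (w.valuation L (algebraMap F L (η (be w) : F))) with h | h <;> rw [h]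
      · exact one_ne_zero
      · exact hηw _ _))
    (fun _ => 0) (ε := 1) one_pos
  have hy' : ∀ v ∈ S, ∀ w : HeightOneSpectrum (𝓞 L), Even.Ab w v →
      w.valuation L (y - g v) < w.valuation L (g v : L) *
        min 1 (w.valuation L (algebraMap F L (η v : F))) := by
    intro v hv w hw
    have h1 := hy w ((ov_finite (E := L) hS).mem_toFinset.mpr ⟨v, hv, hw⟩)
    rw [hbe' hw] at h1
    exact h1
  have hy0 : y ≠ 0 := by
    rintro rfl
    obtain ⟨w, hw⟩ := exists_above (E := L) v₀
    have h1 := hy' v₀ hv₀ w hw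
    rw [zero_sub, Valuation.map_neg] at h1
    refine absurd h1 (not_lt.mpr ?_)
    calc _ ≤ w.valuation L (g v₀ : L) * 1 := mul_le_mul' le_rfl (min_le_left _ _)
      _ = _ := mul_one _
  have hNy0 : Algebra.norm F y ≠ 0 := Algebra.norm_ne_zero_iff.mpr hy0
  have hN : Units.mk0 _ hNy0 ∈ NF M a := mem_NF_of_norm Q (e := y) rfl (Q.exists_poly y)
  refine ⟨Units.mk0 _ hNy0, hN, fun v hv => lt_of_lt_of_le ?_ (he2 v)⟩
  have hgN : Algebra.norm F (g v : L) ≠ 0 := Algebra.norm_ne_zero_iff.mpr (g v).ne_zero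
  have h2 : v.valuation F (Algebra.norm F (y / g v) - 1) < v.valuation F (e v : F) := by
    refine hη v (y / g v) fun w hw => ?_
    have h3 := hy' v hv w hw
    have e1 : y / g v - 1 = (y - g v) / g v := by
      have := (g v).ne_zero
      field_simp
    rw [e1, map_div₀, div_lt_iff₀ (zero_lt_iff.mpr (hgw w v)), mul_comm]
    exact h3.trans_le (mul_le_mul' le_rfl (min_le_right _ _))
  have h4 := close_mul (v.valuation F) (he1 v) (hg v hv) (close_inv (v.valuation F) (he1 v) h2)
  have e2 : ((c / Units.mk0 _ hNy0 : Fˣ) : F) =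
      (c : F) / Algebra.norm F (g v : L) * (Algebra.norm F (y / g v))⁻¹ := by
    rw [Units.val_div_eq_div_val, Units.val_mk0, div_eq_mul_inv y, map_mul]
    have e3 : Algebra.norm F ((g v : L)⁻¹) = (Algebra.norm F (g v : L))⁻¹ := by
      apply eq_inv_of_mul_eq_one_left
      rw [← map_mul, inv_mul_cancel₀ (g v).ne_zero, map_one]
    rw [e3]
    field_simp
  rw [e2]
  exact h4

variable {E : Type} [Field E] [NumberField E] [Algebra F E]

/-- The norm on unit groups. -/
noncomputable def nrm (F E : Type) [Field F] [Field E] [Algebra F E] : Eˣ →* Fˣ :=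
  Units.map (Algebra.norm F : E →* F)

omit [NumberField F] [NumberField E] in
theorem nrm_val (x : Eˣ) : ((nrm F E x : Fˣ) : F) = Algebra.norm F (x : E) := rfl

/-- The norm of a global norm is a global norm. -/
theorem nrm_mem_NF (M : Mu p F) {b : Fˣ} {z : Eˣ} (hz : z ∈ NF (M.map E) (io F E b)) :
    nrm F E z ∈ NF M b := by
  classical
  by_cases hb : b ∈ Pw p F
  · rw [NF_eq_top M hb]
    exact Subgroup.mem_top _
  obtain ⟨L, _, _, _, θ, σ, Q⟩ := exists_kum M b hb
  have hfd := Q.fd
  obtain ⟨h, hh⟩ := hz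
  let B := L ⊗[F] E
  let ι : E →+* B := (Algebra.TensorProduct.includeRight : E →ₐ[F] B).toRingHom
  let _ : Algebra E B := ι.toAlgebra
  have hι : ∀ x : E, algebraMap E B x = (1 : L) ⊗ₜ[F] x := fun _ => rfl
  have hswap : ∀ x : F, (1 : L) ⊗ₜ[F] (algebraMap F E x) = (algebraMap F L x) ⊗ₜ[F] (1 : E) := by
    intro x
    rw [Algebra.algebraMap_eq_smul_one, Algebra.algebraMap_eq_smul_one, TensorProduct.tmul_smul,
      TensorProduct.smul_tmul']
  set x : B := θ ⊗ₜ[F] (1 : E) with hx
  have hxp : x ^ p = algebraMap E B (io F E b : Eˣ) := by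
    rw [hx, Algebra.TensorProduct.tmul_pow, one_pow, Q.pow, hι, io_val, hswap]
  have h1 := (M.map E).aeval_nf h hxp
  set u : B := aeval x h with hu
  have h2 : ∀ i : ℕ, aeval (algebraMap E B ((M.map E).ζ ^ i) * x) h =
      Algebra.TensorProduct.map (σ ^ i : L ≃ₐ[F] L).toAlgHom (AlgHom.id F E) u := by
    intro i
    set s := Algebra.TensorProduct.map (σ ^ i : L ≃ₐ[F] L).toAlgHom (AlgHom.id F E) with hs
    have h3 : s x = algebraMap E B ((M.map E).ζ ^ i) * x := by
      have e1 : (M.map E).ζ ^ i = algebraMap F E (M.ζ ^ i) := by rw [map_pow]; rfl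
      rw [hx, hs, Algebra.TensorProduct.map_tmul, hι, e1, hswap,
        Algebra.TensorProduct.tmul_mul_tmul, one_mul, ← Q.sig_theta i]
      rfl
    rw [← h3, hu, aeval_def, aeval_def]
    have h4 := Polynomial.hom_eval₂ h (algebraMap E B) (s : B →+* B) x
    have h5 : (s : B →+* B).comp (algebraMap E B) = algebraMap E B := by
      ext e
      rw [RingHom.comp_apply, hι]
      change s ((1 : L) ⊗ₜ[F] e) = _
      rw [hs, Algebra.TensorProduct.map_tmul, map_one]
      rfl
    rw [h5] at h4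
    exact h4.symm
  rw [Finset.prod_congr rfl fun i _ => h2 i, ← hh, hι] at h1
  have h6 := congrArg (Algebra.norm L) h1
  rw [map_prod, Hey.H63.norm_one_tmul, Finset.prod_congr rfl fun i _ =>
    Hey.H63.norm_map (σ ^ i : L ≃ₐ[F] L).toAlgHom u] at h6
  have h7 : algebraMap F L (Algebra.norm F (z : E)) =
      algebraMap F L (Algebra.norm F (Algebra.norm L u)) := by
    rw [h6, Q.norm_eq]
    rfl
  have h8 := (algebraMap F L).injective h7
  exact mem_NF_of_norm Q (e := Algebra.norm L u) h8.symm (Q.exists_poly _)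

theorem above_fin (v : HeightOneSpectrum (𝓞 F)) :
    {w : HeightOneSpectrum (𝓞 E) | Even.Ab w v}.Finite := by
  refine (ov_finite (E := E) (Set.finite_singleton v)).subset fun w hw => ?_
  exact ⟨v, rfl, hw⟩

/-- The norm of an element that is a local norm at all places above `v` is a local norm
at `v`. -/
theorem nrm_local (M : Mu p F) (v : HeightOneSpectrum (𝓞 F)) (b : Fˣ) (c : Eˣ)
    (h : ∀ w : HeightOneSpectrum (𝓞 E), Even.Ab w v →
      c ∈ NF (M.map E) (io F E b) ⊔ LS (M.map E) (w.valuation E)) :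
    nrm F E c ∈ NF M b ⊔ LS M (v.valuation F) := by
  have hl0 : M.l ^ p ≠ 0 := pow_ne_zero p M.l_ne_zero
  obtain ⟨η, hη⟩ := Even.norm_near_one (E := E) v (Units.mk0 (M.l ^ p) hl0) (M.val_lp_le _)
  obtain ⟨z, hz, ht⟩ := near_norm (M.map E) (io F E b) c (above_fin (E := E) v)
    (fun w hw => h w hw) (fun _ => io F E η)
  have h1 := hη ((c / z : Eˣ) : E) (fun w hw => ht w hw)
  rw [← nrm_val, Units.val_mk0] at h1
  have h2 : nrm F E (c / z) ∈ LS M (v.valuation F) := LS_of_close h1
  have h3 : nrm F E c = nrm F E (c / z) * nrm F E z := by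
    rw [← map_mul, div_mul_cancel]
  rw [h3]
  exact Subgroup.mul_mem _ (Subgroup.mem_sup_right h2) (Subgroup.mem_sup_left (nrm_mem_NF M hz))

end Vale.Agent.P011.H929
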