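import Vale.Agent.P011.ArP.Has4

/-!
The norm index of a Kummer extension of odd prime degree, without ideles.

For a finite set `S` of places, `GS M a S` is the group generated by the `S`-units and the elements
which are local norms at the places of `S`; the quotient of the multiplicative group by it is the
idele class group modulo norms. Its index is at most `p`, it is not everything, and there are
local elements at a single place (outside a given finite set) which generate the quotient for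
all large `S`.
-/

open NumberField IsDedekindDomain Polynomial Module

namespace Vale.Agent.P011.H929

open Vale.Agent.P011.Arith (Z0 finite_ne_one)
open Vale.Agent.P011.ArP

variable {p : ℕ} {F : Type} [Field F] [NumberField F]

/-- The elements which are local norms at all places of `S`. -/
noncomputable def LL (M : Mu p F) (a : Fˣ) (S : Set (HeightOneSpectrum (𝓞 F))) : Subgroup Fˣ :=
  ⨅ v : S, NF M a ⊔ LS M (v.1.valuation F)

theorem mem_LL {M : Mu p F} {a x : Fˣ} {S : Set (HeightOneSpectrum (𝓞 F))} :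
    x ∈ LL M a S ↔ ∀ v ∈ S, x ∈ NF M a ⊔ LS M (v.valuation F) := by
  rw [LL, Subgroup.mem_iInf]
  exact ⟨fun h v hv => h ⟨v, hv⟩, fun h v => h v.1 v.2⟩

/-- The group generated by the `S`-units and the local norms at `S`. -/
noncomputable def GS (M : Mu p F) (a : Fˣ) (S : Set (HeightOneSpectrum (𝓞 F))) : Subgroup Fˣ :=
  S.unit F ⊔ LL M a S

theorem unit_le_GS {M : Mu p F} {a : Fˣ} {S : Set (HeightOneSpectrum (𝓞 F))} :
    S.unit F ≤ GS M a S := le_sup_left

theorem LL_le_GS {M : Mu p F} {a : Fˣ} {S : Set (HeightOneSpectrum (𝓞 F))} :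
    LL M a S ≤ GS M a S := le_sup_right

theorem pow_mem_GS (M : Mu p F) (a x : Fˣ) (S : Set (HeightOneSpectrum (𝓞 F))) :
    x ^ p ∈ GS M a S :=
  LL_le_GS (mem_LL.mpr fun _ _ => pow_mem_sup M _ a x)

theorem Pr.val_p {S : Set (HeightOneSpectrum (𝓞 F))} (hS : Pr p S) {v : HeightOneSpectrum (𝓞 F)}
    (hv : v ∉ S) : v.valuation F (p : F) = 1 := by
  by_contra h
  exact hv (hS.1 v h)

/-- The Hasse norm theorem for `S`-units. -/
theorem unit_LL (M : Mu p F) {a b : Fˣ} {S : Set (HeightOneSpectrum (𝓞 F))} (hS : Good M a S)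
    (hb : b ∈ S.unit F) (h : b ∈ LL M a S) : b ∈ NF M a := by
  refine hasse_norm M a b fun v => ?_
  by_cases hv : v ∈ S
  · exact mem_LL.mp h v hv
  · exact unit_norm v (Pr.val_p hS.pr hv) a b (hS.unit v hv) (hb v hv)

open Classical in
theorem local_index_eq (M : Mu p F) (a : Fˣ) (v : HeightOneSpectrum (𝓞 F)) :
    (NF M a ⊔ LS M (v.valuation F)).index = if a ∈ LS M (v.valuation F) then 1 else p := by
  split_ifs with h
  · rw [NF_sup_of_mem h, Subgroup.index_top]
  · exact local_index M v a h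

theorem prod_index (M : Mu p F) (a : Fˣ) {S : Set (HeightOneSpectrum (𝓞 F))} (hS : S.Finite)
    [Fintype S] : ∏ v : S, (NF M a ⊔ LS M (v.1.valuation F)).index = p ^ tc M a S := by
  classical
  rw [Finset.prod_congr rfl fun v _ => local_index_eq M a v.1]
  rw [Finset.prod_ite, Finset.prod_const_one, one_mul, Finset.prod_const, tc]
  congr 1
  rw [Set.ncard_eq_toFinset_card _ (hS.subset fun p hp => hp.1),
    ← Finset.card_map (Function.Embedding.subtype _)]
  congr 1
  ext v
  simp only [Finset.mem_map, Finset.mem_filter, Finset.mem_univ, true_and,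
    Function.Embedding.subtype_apply, Subtype.exists, exists_and_left, exists_prop,
    exists_eq_right_right, Set.Finite.mem_toFinset, Set.mem_ofPred_eq]
  tauto

/-- **The second inequality**: the index is at most `p`. -/
theorem GS_index (M : Mu p F) {a : Fˣ} {S : Set (HeightOneSpectrum (𝓞 F))} (hS : Good M a S) :
    (GS M a S).index ≠ 0 ∧ (GS M a S).index ≤ p := by
  classical
  have : Fintype S := hS.fin.fintype
  have hp0 : 0 < p := M.prime.pos
  have hfin : ∀ v : S, (NF M a ⊔ LS M (v.1.valuation F)).index ≠ 0 := by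
    intro v h0
    exact LS_finiteIndex M v.1 (Nat.eq_zero_of_zero_dvd (h0 ▸ Subgroup.index_dvd_of_le le_sup_right))
  have hle : (LL M a S).index ≤ p ^ tc M a S := by
    rw [← prod_index M a hS.fin]
    exact Subgroup.index_iInf_le _
  have hne : (LL M a S).index ≠ 0 := Subgroup.index_iInf_ne_zero hfin
  have hrel : (LL M a S).relIndex (GS M a S) = (NF M a).relIndex (S.unit F) := by
    rw [GS, sup_comm, Subgroup.relIndex_sup_left, ← Subgroup.inf_relIndex_right,
      ← Subgroup.inf_relIndex_right (NF M a)]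
    congr 1
    ext x
    rw [Subgroup.mem_inf, Subgroup.mem_inf]
    constructor
    · rintro ⟨h1, h2⟩
      exact ⟨unit_LL M hS h2 h1, h2⟩
    · rintro ⟨h1, h2⟩
      exact ⟨mem_LL.mpr fun v _ => Subgroup.mem_sup_left h1, h2⟩
  have hmul := Subgroup.relIndex_mul_index (LL_le_GS (M := M) (a := a) (S := S))
  have hidx := hS.idx
  rw [hrel] at hmul
  have hNne : 0 < (NF M a).relIndex (S.unit F) := by
    rcases Nat.eq_zero_or_pos ((NF M a).relIndex (S.unit F)) with h | h
    · rw [h, zero_mul] at hidx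
      exact absurd hidx (pow_pos hp0 _).ne
    · exact h
  refine ⟨fun h => ?_, ?_⟩
  · rw [h, mul_zero] at hmul
    exact hne hmul.symm
  · refine Nat.le_of_mul_le_mul_left ?_ hNne
    rw [hmul, hidx]
    exact hle

/-- **The first inequality**: the group is not everything. -/
theorem GS_ne_top (M : Mu p F) {a : Fˣ} {S : Set (HeightOneSpectrum (𝓞 F))} (hS : Good M a S) :
    GS M a S ≠ ⊤ := by
  classical
  intro htop
  refine not_good_of_patterns M a hS fun g => ?_
  obtain ⟨f, hf⟩ := weak_approx M hS.fin.toFinset g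
  have hfG : f ∈ GS M a S := htop ▸ Subgroup.mem_top f
  obtain ⟨u, hu, h, hh, rfl⟩ := Subgroup.mem_sup.mp hfG
  refine ⟨u, hu, fun v hv _ => ?_⟩
  have h1 : u * h / g v ∈ NF M a ⊔ LS M (v.valuation F) :=
    Subgroup.mem_sup_right (hf v (hS.fin.mem_toFinset.mpr hv))
  have h2 := Subgroup.div_mem _ h1 (mem_LL.mp hh v hv)
  have e : u * h / g v / h = u / g v := by
    rw [div_div, mul_comm (g v) h, mul_comm u h, mul_div_mul_left_eq_div]
  rwa [e] at h2

/-- A local norm at an unramified place is, up to a unit outside `S`, a global norm. -/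
theorem exists_corr (M : Mu p F) {a u : Fˣ} {S : Set (HeightOneSpectrum (𝓞 F))}
    (hS : Good M a S) {v : HeightOneSpectrum (𝓞 F)} (hv : v ∉ S)
    (hu : u ∈ NF M a ⊔ LS M (v.valuation F)) :
    ∃ B ∈ NF M a, v.valuation F (B : F) = (v.valuation F (u : F))⁻¹ ∧
      ∀ v' ∉ S, v' ≠ v → v'.valuation F (B : F) = 1 := by
  by_cases ha : a ∈ LS M (v.valuation F)
  · obtain ⟨β, hβ, h1, h2⟩ := hS.split v hv ha
    obtain ⟨n, hn⟩ := exists_ord_eq v u
    refine ⟨β ^ n, Subgroup.zpow_mem _ hβ n, ?_, fun v' hv' hne => ?_⟩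
    · rw [Units.val_zpow_eq_zpow_val, map_zpow₀, h1, hn, ← WithZero.exp_neg,
        ← WithZero.exp_zsmul]
      congr 1
      simp
    · rw [Units.val_zpow_eq_zpow_val, map_zpow₀, h2 v' hv' hne, one_zpow]
  · have hp1 := Pr.val_p hS.pr hv
    have hunr : Unr M (v.valuation F) a :=
      ⟨hS.unit v hv, by
        rw [val_lp_eq_one M hp1]
        exact (v.valuation F).map_sub_le (hS.unit v hv).le (by rw [map_one]), ha⟩
    obtain ⟨k, hk⟩ := hunr.ord hu
    obtain ⟨π, h1, h2⟩ := hS.pr.2 v hv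
    refine ⟨(π ^ k) ^ p, Pw_le_NF M a ⟨π ^ k, rfl⟩, ?_, fun v' hv' hne => ?_⟩
    · rw [Units.val_pow_eq_pow_val, map_pow, Units.val_zpow_eq_zpow_val, map_zpow₀, h1, hk,
        ← WithZero.exp_neg, ← WithZero.exp_zsmul, ← WithZero.exp_nsmul]
      congr 1
      simp
    · rw [Units.val_pow_eq_pow_val, map_pow, Units.val_zpow_eq_zpow_val, map_zpow₀,
        h2 v' hv' hne, one_zpow, one_pow]

/-- **Monotonicity.** -/
theorem GS_mono (M : Mu p F) {a : Fˣ} {S S' : Set (HeightOneSpectrum (𝓞 F))} (hS : Good M a S)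
    (hSS' : S ⊆ S') (hS' : S'.Finite) {z z' : Fˣ}
    (h1 : ∀ v ∈ S, z' / z ∈ NF M a ⊔ LS M (v.valuation F))
    (h2 : ∀ v ∈ S', v ∉ S → z' ∈ NF M a ⊔ LS M (v.valuation F)) (h : z' ∈ GS M a S') :
    z ∈ GS M a S := by
  classical
  obtain ⟨u, hu, n, hn, rfl⟩ := Subgroup.mem_sup.mp h
  have hloc : ∀ v ∈ S', v ∉ S → u ∈ NF M a ⊔ LS M (v.valuation F) := by
    intro v hv hvS
    have h3 := Subgroup.div_mem _ (h2 v hv hvS) (mem_LL.mp hn v hv)
    rwa [mul_div_cancel_right] at h3
  have hB : ∀ v : HeightOneSpectrum (𝓞 F), ∃ B ∈ NF M a, v ∈ S' → v ∉ S →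
      v.valuation F (B : F) = (v.valuation F (u : F))⁻¹ ∧
        ∀ v' ∉ S, v' ≠ v → v'.valuation F (B : F) = 1 := by
    intro v
    by_cases hv : v ∈ S' ∧ v ∉ S
    · obtain ⟨B, hB, h3, h4⟩ := exists_corr M hS hv.2 (hloc v hv.1 hv.2)
      exact ⟨B, hB, fun _ _ => ⟨h3, h4⟩⟩
    · exact ⟨1, Subgroup.one_mem _, fun h3 h4 => absurd ⟨h3, h4⟩ hv⟩
  choose B hB1 hB2 using hB
  let T : Finset (HeightOneSpectrum (𝓞 F)) := hS'.toFinset.filter (· ∉ S)
  have hT : ∀ {v}, v ∈ T ↔ v ∈ S' ∧ v ∉ S := by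
    intro v
    rw [Finset.mem_filter, hS'.mem_toFinset]
  set C : Fˣ := ∏ v ∈ T, B v with hC
  have hCN : C ∈ NF M a := Subgroup.prod_mem _ fun v _ => hB1 v
  have hCv : ∀ v ∉ S, v.valuation F (C : F) = (v.valuation F (u : F))⁻¹ := by
    intro v hv
    rw [hC, Units.coe_prod, map_prod]
    by_cases hvT : v ∈ T
    · rw [Finset.prod_eq_single_of_mem v hvT]
      · exact (hB2 v (hT.mp hvT).1 hv).1
      · intro v' hv' hne
        exact (hB2 v' (hT.mp hv').1 (hT.mp hv').2).2 v hv hne.symm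
    · have hvS' : v ∉ S' := fun h3 => hvT (hT.mpr ⟨h3, hv⟩)
      rw [hu v hvS', inv_one]
      refine Finset.prod_eq_one fun v' hv' => ?_
      exact (hB2 v' (hT.mp hv').1 (hT.mp hv').2).2 v hv fun h3 => hvT (h3 ▸ hv')
  have huC : u * C ∈ S.unit F := by
    intro v hv
    change v.valuation F ((u * C : Fˣ) : F) = 1
    rw [Units.val_mul, map_mul, hCv v hv, mul_inv_cancel₀]
    exact (Valuation.ne_zero_iff _).mpr u.ne_zero
  have hnC : n / C ∈ LL M a S := mem_LL.mpr fun v hv =>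
    Subgroup.div_mem _ (mem_LL.mp hn v (hSS' hv)) (Subgroup.mem_sup_left hCN)
  have hzz : u * n / z ∈ LL M a S := mem_LL.mpr h1
  have e : z = (u * C) * (n / C) / (u * n / z) := by
    rw [mul_assoc, mul_div_cancel, div_div_cancel]
  rw [e]
  exact Subgroup.div_mem _ (Subgroup.mul_mem _ (unit_le_GS huC) (LL_le_GS hnC)) (LL_le_GS hzz)

/-- **A local generator of the norm class group** outside a given finite set of places. -/
theorem exists_gen (M : Mu p F) {a : Fˣ} (ha : a ∉ Pw p F)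
    {A : Set (HeightOneSpectrum (𝓞 F))} (hA : A.Finite) :
    ∃ (v₀ : HeightOneSpectrum (𝓞 F)) (z₀ : Fˣ) (S₀ : Set (HeightOneSpectrum (𝓞 F))),
      v₀ ∉ A ∧ v₀ ∈ S₀ ∧ S₀.Finite ∧ a ∉ LS M (v₀.valuation F) ∧
      (∀ S, S₀ ⊆ S → S.Finite → Good M a S) ∧
      ∀ S, S₀ ⊆ S → S.Finite → ∀ z : Fˣ, z / z₀ ∈ NF M a ⊔ LS M (v₀.valuation F) →
        (∀ v ∈ S, v ≠ v₀ → z ∈ NF M a ⊔ LS M (v.valuation F)) → z ∉ GS M a S := by
  classical
  obtain ⟨S₁, hS₁, hgood⟩ := exists_good M a ha
  set S := S₁ ∪ A with hS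
  have hSf : S.Finite := hS₁.union hA
  have hSg : Good M a S := hgood S Set.subset_union_left hSf
  obtain ⟨z, hz⟩ : ∃ z, z ∉ GS M a S := by
    by_contra hcon
    push Not at hcon
    exact GS_ne_top M hSg (eq_top_iff.mpr fun x _ => hcon x)
  -- a global element close to `z` at `A`
  obtain ⟨f, hf⟩ := weak_approx M hA.toFinset (fun _ => z)
  set S' := S ∪ {v | v.valuation F (f : F) ≠ 1} with hS'
  have hS'f : S'.Finite := hSf.union (finite_ne_one f)
  have hS'g : Good M a S' :=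
    hgood S' (Set.subset_union_left.trans Set.subset_union_left) hS'f
  obtain ⟨z₁, hz₁⟩ := weak_approx M hS'f.toFinset (fun v => if v ∈ S then z / f else f⁻¹)
  have hz₁G : z₁ ∉ GS M a S' := by
    intro h
    apply hz
    have hfu : f ∈ S'.unit F := by
      intro v hv
      by_contra h3
      exact hv (Or.inr h3)
    refine GS_mono M hSg Set.subset_union_left hS'f (z' := z₁ * f) ?_ ?_
      (Subgroup.mul_mem _ h (unit_le_GS hfu))
    · intro v hv
      have h3 := hz₁ v (hS'f.mem_toFinset.mpr (Or.inl hv))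
      rw [if_pos hv] at h3
      have e : z₁ * f / z = z₁ / (z / f) := by
        rw [div_div_eq_mul_div]
      rw [e]
      exact Subgroup.mem_sup_right h3
    · intro v hv hvS
      have h3 := hz₁ v (hS'f.mem_toFinset.mpr hv)
      rw [if_neg hvS, div_inv_eq_mul] at h3
      exact Subgroup.mem_sup_right h3
  have hz₁A : ∀ v ∈ A, z₁ ∈ LS M (v.valuation F) := by
    intro v hv
    have h3 := hz₁ v (hS'f.mem_toFinset.mpr (Or.inl (Or.inr hv)))
    rw [if_pos (show v ∈ S from Or.inr hv)] at h3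
    have h4 := hf v (hA.mem_toFinset.mpr hv)
    have e : z₁ = (z₁ / (z / f)) * (f / z)⁻¹ := by
      rw [inv_div, div_mul_cancel]
    rw [e]
    exact Subgroup.mul_mem _ h3 (Subgroup.inv_mem _ h4)
  -- the components of `z₁`
  choose zc hzc using fun v₀ : HeightOneSpectrum (𝓞 F) =>
    weak_approx M hS'f.toFinset (fun v => if v = v₀ then z₁ else 1)
  have hzc1 : ∀ v ∈ S', zc v / z₁ ∈ LS M (v.valuation F) := by
    intro v hv
    have h3 := hzc v v (hS'f.mem_toFinset.mpr hv)
    rwa [if_pos rfl] at h3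
  have hzc2 : ∀ v₀, ∀ v ∈ S', v ≠ v₀ → zc v₀ ∈ LS M (v.valuation F) := by
    intro v₀ v hv hne
    have h3 := hzc v₀ v (hS'f.mem_toFinset.mpr hv)
    rwa [if_neg hne, div_one] at h3
  let T : Finset (HeightOneSpectrum (𝓞 F)) := hS'f.toFinset.filter (· ∉ A)
  have hT : ∀ {v}, v ∈ T ↔ v ∈ S' ∧ v ∉ A := by
    intro v
    rw [Finset.mem_filter, hS'f.mem_toFinset]
  obtain ⟨v₀, hv₀T, hv₀⟩ : ∃ v₀ ∈ T, zc v₀ ∉ GS M a S' := by
    by_contra hcon
    push Not at hcon
    apply hz₁G
    have h3 : ∏ v ∈ T, zc v ∈ GS M a S' := Subgroup.prod_mem _ hcon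
    have h4 : (∏ v ∈ T, zc v) / z₁ ∈ LL M a S' := by
      refine mem_LL.mpr fun v hv => Subgroup.mem_sup_right ?_
      by_cases hvA : v ∈ A
      · refine Subgroup.div_mem _ (Subgroup.prod_mem _ fun v' hv' => ?_) (hz₁A v hvA)
        refine hzc2 v' v hv ?_
        rintro rfl
        exact (hT.mp hv').2 hvA
      · rw [← Finset.mul_prod_erase T zc (hT.mpr ⟨hv, hvA⟩), mul_comm, mul_div_assoc]
        refine Subgroup.mul_mem _ (Subgroup.prod_mem _ fun v' hv' => ?_) (hzc1 v hv)
        exact hzc2 v' v hv (Finset.ne_of_mem_erase hv').symm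
    have e : z₁ = (∏ v ∈ T, zc v) / ((∏ v ∈ T, zc v) / z₁) := by rw [div_div_cancel]
    rw [e]
    exact Subgroup.div_mem _ h3 (LL_le_GS h4)
  have hv₀S' := (hT.mp hv₀T).1
  refine ⟨v₀, zc v₀, S', (hT.mp hv₀T).2, hv₀S', hS'f, ?_, ?_, ?_⟩
  · intro h3
    apply hv₀
    refine LL_le_GS (mem_LL.mpr fun v hv => ?_)
    by_cases hvv : v = v₀
    · rw [hvv, NF_sup_of_mem h3]
      exact Subgroup.mem_top _
    · exact Subgroup.mem_sup_right (hzc2 v₀ v hv hvv)
  · intro R hR hRf
    exact hgood R ((Set.subset_union_left.trans Set.subset_union_left).trans hR) hRf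
  · intro R hR hRf w hw1 hw2 hw3
    apply hv₀
    refine GS_mono M hS'g hR hRf (z' := w) ?_ ?_ hw3
    · intro v hv
      by_cases hvv : v = v₀
      · rw [hvv]
        exact hw1
      · exact Subgroup.div_mem _ (hw2 v (hR hv) hvv) (Subgroup.mem_sup_right (hzc2 v₀ v hv hvv))
    · intro v hv hvS'
      exact hw2 v hv fun h3 => hvS' (h3 ▸ hv₀S')

end Vale.Agent.P011.H929
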