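import Vale.Agent.P011.Even.Split
import Vale.Agent.P011.H929.Odd.LocNrm
import Vale.Agent.P011.H929.Odd.LocHom
import Vale.Agent.P011.H929.Odd.NrmIdx

/-!
**The two-field norm lemma**: for a cyclic extension `R' / R` of odd prime degree (roots of unity
in `R`) and a finite extension `E / R` with a factor of degree one at all places where `x` is not
a local norm from `R'` and at one more place, every `x` is a norm from `R'` times a norm from `E`,
with approximation.
-/

open NumberField IsDedekindDomain Polynomial Module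

namespace Vale.Agent.P011.H929

open Vale.Agent.P011.Arith (Z0 exists_above exists_below below_unique ov_finite ov approxVal
  finite_ne_one val_lt_val_iff val_le_one_iff)
open Vale.Agent.P011.ArP Vale.Agent.P011.H373
open Vale.Agent.P011.H511 (close_mul close_inv one_of_close)

variable {p : ℕ} {F : Type} [Field F] [NumberField F] {E : Type} [Field E] [NumberField E]
  [Algebra F E]

theorem min_ne {x y : Z0} (hx : x ≠ 0) (hy : y ≠ 0) : min x y ≠ 0 := by
  rcases min_choice x y with h | h <;> rw [h] <;> assumption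

/-- Norms with prescribed local targets at places with a factor of degree one. -/
theorem exists_target (M : Mu p F) {S : Set (HeightOneSpectrum (𝓞 F))} (hS : S.Finite)
    (c : HeightOneSpectrum (𝓞 F) → Fˣ)
    (hc : ∀ v ∈ S, c v = 1 ∨ Nonempty (E →ₐ[F] v.adicCompletion F))
    (ρ : HeightOneSpectrum (𝓞 F) → Fˣ) :
    ∃ y : Eˣ, ∀ v ∈ S, nrm F E y / c v ∈ LS M (v.valuation F) ∧
      (c v = 1 → ∀ w : HeightOneSpectrum (𝓞 E), Even.Ab w v →
        w.valuation E ((y : E) - 1) < w.valuation E (algebraMap F E (ρ v : F))) := by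
  classical
  rcases S.eq_empty_or_nonempty with rfl | ⟨v₁, hv₁⟩
  · exact ⟨1, by simp⟩
  have hfd : FiniteDimensional F E := Module.Finite.of_restrictScalars_finite ℚ F E
  have hl0 : M.l ^ p ≠ 0 := pow_ne_zero p M.l_ne_zero
  -- local elements
  have hloc : ∀ v : HeightOneSpectrum (𝓞 F), ∃ e : Eˣ, v ∈ S →
      (c v = 1 → e = 1) ∧ nrm F E e / c v ∈ LS M (v.valuation F) := by
    intro v
    by_cases h1 : c v = 1
    · exact ⟨1, fun _ => ⟨fun _ => rfl, by rw [h1, map_one, div_one]; exact Subgroup.one_mem _⟩⟩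
    by_cases hv : v ∈ S
    · obtain ⟨e, he⟩ := loc_hom (E := E) v ((hc v hv).resolve_left h1) (c v).ne_zero
        (M.val_lp_ne (v.valuation F))
      have he0 : e ≠ 0 := by
        rintro rfl
        rw [Algebra.norm_zero, div_zero, zero_sub, Valuation.map_neg, map_one] at he
        exact absurd he (not_lt.mpr (M.val_lp_le _))
      refine ⟨Units.mk0 e he0, fun _ => ⟨fun h => absurd h h1, ?_⟩⟩
      have h2 : c v / nrm F E (Units.mk0 e he0) ∈ LS M (v.valuation F) := by
        refine LS_of_close ?_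
        rw [Units.val_div_eq_div_val, nrm_val, Units.val_mk0]
        exact he
      have h3 := Subgroup.inv_mem _ h2
      rwa [inv_div] at h3
    · exact ⟨1, fun h => absurd h hv⟩
  choose e he using hloc
  choose η hη using fun v : HeightOneSpectrum (𝓞 F) =>
    Even.norm_near_one (E := E) v (Units.mk0 (M.l ^ p) hl0) (M.val_lp_le _)
  choose be hbe using fun w : HeightOneSpectrum (𝓞 E) => exists_below (F := F) w
  have hbe' : ∀ {v : HeightOneSpectrum (𝓞 F)} {w : HeightOneSpectrum (𝓞 E)},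
      w.asIdeal.comap (algebraMap (𝓞 F) (𝓞 E)) = v.asIdeal → be w = v := fun h =>
    below_unique (hbe _) h
  have hew : ∀ (w : HeightOneSpectrum (𝓞 E)) (v : HeightOneSpectrum (𝓞 F)),
      w.valuation E (e v : E) ≠ 0 := fun w v => (Valuation.ne_zero_iff _).mpr (e v).ne_zero
  have hFw : ∀ (w : HeightOneSpectrum (𝓞 E)) (x : Fˣ),
      w.valuation E (algebraMap F E (x : F)) ≠ 0 := fun w x =>
    (Valuation.ne_zero_iff _).mpr ((_root_.map_ne_zero _).mpr x.ne_zero)
  obtain ⟨y, hy, -⟩ := approxVal (F := E) (ov_finite (E := E) hS).toFinset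
    (fun w => (e (be w) : E))
    (fun w => w.valuation E (e (be w) : E) *
      min 1 (min (w.valuation E (algebraMap F E (η (be w) : F)))
        (w.valuation E (algebraMap F E (ρ (be w) : F)))))
    (fun w _ => mul_ne_zero (hew _ _) (min_ne one_ne_zero (min_ne (hFw _ _) (hFw _ _))))
    (fun _ => 0) (ε := 1) one_pos
  have hy' : ∀ v ∈ S, ∀ w : HeightOneSpectrum (𝓞 E), Even.Ab w v →
      w.valuation E (y - e v) < w.valuation E (e v : E) *
        min 1 (min (w.valuation E (algebraMap F E (η v : F)))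
          (w.valuation E (algebraMap F E (ρ v : F)))) := by
    intro v hv w hw
    have h1 := hy w ((ov_finite (E := E) hS).mem_toFinset.mpr ⟨v, hv, hw⟩)
    rw [hbe' hw] at h1
    exact h1
  have hy0 : y ≠ 0 := by
    rintro rfl
    obtain ⟨w, hw⟩ := exists_above (E := E) v₁
    have h1 := hy' v₁ hv₁ w hw
    rw [zero_sub, Valuation.map_neg] at h1
    refine absurd h1 (not_lt.mpr ?_)
    calc _ ≤ w.valuation E (e v₁ : E) * 1 := mul_le_mul' le_rfl (min_le_left _ _)
      _ = _ := mul_one _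
  refine ⟨Units.mk0 y hy0, fun v hv => ⟨?_, fun h1 w hw => ?_⟩⟩
  · have h2 : nrm F E (Units.mk0 y hy0 / e v) ∈ LS M (v.valuation F) := by
      refine LS_of_close (hη v _ fun w hw => ?_)
      have h3 := hy' v hv w hw
      have e1 : ((Units.mk0 y hy0 / e v : Eˣ) : E) - 1 = (y - e v) / e v := by
        rw [Units.val_div_eq_div_val, Units.val_mk0]
        have := (e v).ne_zero
        field_simp
      rw [e1, map_div₀, div_lt_iff₀ (zero_lt_iff.mpr (hew w v)), mul_comm]
      exact h3.trans_le (mul_le_mul' le_rfl ((min_le_right _ _).trans (min_le_left _ _)))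
    have h4 := Subgroup.mul_mem _ h2 (he v hv).2
    have e2 : nrm F E (Units.mk0 y hy0 / e v) * (nrm F E (e v) / c v) =
        nrm F E (Units.mk0 y hy0) / c v := by
      rw [_root_.map_div, ← mul_div_assoc, div_mul_cancel]
    rwa [e2] at h4
  · have h3 := hy' v hv w hw
    rw [(he v hv).1 h1, Units.val_one, map_one, one_mul] at h3
    exact h3.trans_le ((min_le_right _ _).trans (min_le_right _ _))

/-- The norm of an element which is a unit at the places above `v`. -/
theorem val_nrm_eq_one (v : HeightOneSpectrum (𝓞 F)) (x : Eˣ)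
    (hx : ∀ w : HeightOneSpectrum (𝓞 E), Even.Ab w v → w.valuation E (x : E) = 1) :
    v.valuation F ((nrm F E x : Fˣ) : F) = 1 := by
  have h1 : v.valuation F (Algebra.norm F (x : E)) ≤ 1 :=
    Even.val_norm_le v (x : E) fun w hw => (hx w hw).le
  have h2 : v.valuation F (Algebra.norm F ((x⁻¹ : Eˣ) : E)) ≤ 1 :=
    Even.val_norm_le v ((x⁻¹ : Eˣ) : E) fun w hw => by
      rw [Units.val_inv_eq_inv_val, map_inv₀, hx w hw, inv_one]
  have h3 : Algebra.norm F (x : E) * Algebra.norm F ((x⁻¹ : Eˣ) : E) = 1 := by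
    rw [← map_mul, Units.mul_inv, map_one]
  have h4 : v.valuation F (Algebra.norm F (x : E)) *
      v.valuation F (Algebra.norm F ((x⁻¹ : Eˣ) : E)) = 1 := by
    rw [← map_mul, h3, map_one]
  rw [nrm_val]
  refine le_antisymm h1 ?_
  rw [← h4]
  calc _ ≤ v.valuation F (Algebra.norm F (x : E)) * 1 := mul_le_mul' le_rfl h2
    _ = _ := mul_one _

/-- Norms of the class group. -/
theorem nrm_GS (M : Mu p F) (a : Fˣ) (S : Set (HeightOneSpectrum (𝓞 F))) {n : Eˣ}
    (hn : n ∈ GS (M.map E) (io F E a) (ov E S)) : nrm F E n ∈ GS M a S := by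
  obtain ⟨u, hu, l, hl, rfl⟩ := Subgroup.mem_sup.mp hn
  rw [map_mul]
  refine Subgroup.mul_mem _ (unit_le_GS fun v hv => ?_) (LL_le_GS (mem_LL.mpr fun v hv => ?_))
  · refine val_nrm_eq_one v u fun w hw => hu w ?_
    rintro ⟨v', hv', h⟩
    have : v = v' := HeightOneSpectrum.ext (hw.symm.trans h)
    exact hv (this ▸ hv')
  · exact nrm_local M v a l fun w hw => mem_LL.mp hl w ⟨v, hv, hw⟩

/-- In a group of exponent `p`, an element outside a subgroup of index at most `p` generates the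
quotient. -/
theorem exists_zpow {G : Type} [CommGroup G] {p : ℕ} (hp : p.Prime) (H : Subgroup G)
    (h0 : H.index ≠ 0) (hle : H.index ≤ p) {y : G} (hy : y ∉ H) (hyp : y ^ p ∈ H) (t : G) :
    ∃ i : ℤ, t / y ^ i ∈ H := by
  have : H.FiniteIndex := ⟨h0⟩
  have hfin : Finite (G ⧸ H) := Subgroup.finite_quotient_of_finiteIndex
  have h1 : orderOf (QuotientGroup.mk y : G ⧸ H) = p := by
    have : Fact p.Prime := ⟨hp⟩
    refine orderOf_eq_prime ?_ ?_
    · rw [← QuotientGroup.mk_pow]
      exact (QuotientGroup.eq_one_iff _).mpr hyp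
    · exact fun h => hy ((QuotientGroup.eq_one_iff _).mp h)
  have h2 : Subgroup.zpowers (QuotientGroup.mk y : G ⧸ H) = ⊤ := by
    refine Subgroup.eq_top_of_le_card _ ?_
    rw [Nat.card_zpowers, h1]
    exact hle
  have h3 : (QuotientGroup.mk t : G ⧸ H) ∈ Subgroup.zpowers (QuotientGroup.mk y : G ⧸ H) := by
    rw [h2]
    exact Subgroup.mem_top _
  obtain ⟨i, hi⟩ := Subgroup.mem_zpowers_iff.mp h3
  refine ⟨i, ?_⟩
  rw [← QuotientGroup.eq_one_iff, QuotientGroup.mk_div, QuotientGroup.mk_zpow, hi, div_self']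

/-- **The two-field norm lemma**, Kummer form. -/
theorem two_norm_kd (M : Mu p F) {a : Fˣ} (ha : a ∉ Pw p F)
    {A : Set (HeightOneSpectrum (𝓞 F))} (hA : A.Finite) :
    ∃ v₀ : HeightOneSpectrum (𝓞 F), v₀ ∉ A ∧ ∀ (x : Fˣ) (V : Set (HeightOneSpectrum (𝓞 F))),
      V.Finite → Disjoint V A → (∀ v ∉ V, x ∈ NF M a ⊔ LS M (v.valuation F)) →
      ∀ (E : Type) [Field E] [NumberField E] [Algebra F E],
        (∀ v : HeightOneSpectrum (𝓞 F), v = v₀ ∨ v ∈ V →
          Nonempty (E →ₐ[F] v.adicCompletion F)) →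
        ∀ (A₂ : Set (HeightOneSpectrum (𝓞 F))), A₂.Finite → Disjoint V A₂ →
        ∀ g : HeightOneSpectrum (𝓞 F) → Fˣ, ∃ y : Eˣ, x / nrm F E y ∈ NF M a ∧
          ∀ v, v ∈ A ∨ v ∈ A₂ → ∀ w : HeightOneSpectrum (𝓞 E), Even.Ab w v →
            w.valuation E ((y : E) - 1) < w.valuation E (algebraMap F E (g v : F)) := by
  classical
  obtain ⟨v₀, z₀, S₀, hv₀A, hv₀S₀, hS₀f, hav₀, hgood, hgen⟩ := exists_gen M ha hA
  refine ⟨v₀, hv₀A, fun x V hVf hVA hxV E _ _ _ hhom A₂ hA₂ hVA₂ g => ?_⟩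
  have hfd : FiniteDimensional F E := Module.Finite.of_restrictScalars_finite ℚ F E
  -- `a` is not a `p`-th power in `E`
  have haE : io F E a ∉ Pw p E := by
    intro h
    refine NF_sup_ne_top M v₀ a hav₀ (eq_top_iff.mpr fun z _ => ?_)
    obtain ⟨e, he⟩ := loc_hom (E := E) v₀ (hhom v₀ (Or.inl rfl)) z.ne_zero
      (M.val_lp_ne (v₀.valuation F))
    have he0 : e ≠ 0 := by
      rintro rfl
      rw [Algebra.norm_zero, div_zero, zero_sub, Valuation.map_neg, map_one] at he
      exact absurd he (not_lt.mpr (M.val_lp_le _))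
    have h1 : z / nrm F E (Units.mk0 e he0) ∈ LS M (v₀.valuation F) := by
      refine LS_of_close ?_
      rw [Units.val_div_eq_div_val, nrm_val, Units.val_mk0]
      exact he
    have h2 : nrm F E (Units.mk0 e he0) ∈ NF M a ⊔ LS M (v₀.valuation F) := by
      refine nrm_local M v₀ a _ fun w _ => ?_
      rw [NF_eq_top (M.map E) h, top_sup_eq]
      exact Subgroup.mem_top _
    have e1 : z = z / nrm F E (Units.mk0 e he0) * nrm F E (Units.mk0 e he0) :=
      (div_mul_cancel _ _).symm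
    rw [e1]
    exact Subgroup.mul_mem _ (Subgroup.mem_sup_right h1) h2
  obtain ⟨SE, hSE, hgoodE⟩ := exists_good (M.map E) (io F E a) haE
  choose be hbe using fun w : HeightOneSpectrum (𝓞 E) => exists_below (F := F) w
  set S := S₀ ∪ (A ∪ A₂) ∪ V ∪ {v | v.valuation F (x : F) ≠ 1} ∪ be '' SE with hS
  have hSf : S.Finite :=
    (((hS₀f.union (hA.union hA₂)).union hVf).union (finite_ne_one x)).union (hSE.image _)
  have hS₀S : S₀ ⊆ S := fun v hv => Or.inl (Or.inl (Or.inl (Or.inl hv)))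
  have hAS : A ∪ A₂ ⊆ S := fun v hv => Or.inl (Or.inl (Or.inl (Or.inr hv)))
  have hxS : x ∈ S.unit F := by
    intro v hv
    by_contra h
    exact hv (Or.inl (Or.inr h))
  have hSg : Good M a S := hgood S hS₀S hSf
  have hSEg : Good (M.map E) (io F E a) (ov E S) :=
    hgoodE _ (fun w hw => ⟨be w, Or.inr ⟨w, hw, rfl⟩, hbe w⟩) (ov_finite hSf)
  obtain ⟨hi0, hip⟩ := GS_index (M.map E) hSEg
  -- radii
  obtain ⟨ρ, hρ1, hρ2⟩ := exists_small g
  -- the elements `t` and `y₀`
  obtain ⟨t, ht⟩ := exists_target (E := E) M hSf (fun v => if v ∈ V then x⁻¹ else 1) (by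
    intro v _
    by_cases hv : v ∈ V
    · exact Or.inr (hhom v (Or.inr hv))
    · exact Or.inl (if_neg hv)) ρ
  obtain ⟨y₀, hy₀⟩ := exists_target (E := E) M hSf (fun v => if v = v₀ then z₀ else 1) (by
    intro v _
    by_cases hv : v = v₀
    · exact Or.inr (hhom v (Or.inl hv))
    · exact Or.inl (if_neg hv)) ρ
  have hy₀G : nrm F E y₀ ∉ GS M a S := by
    refine hgen S hS₀S hSf _ ?_ fun v hv hne => ?_
    · have h1 := (hy₀ v₀ (hS₀S hv₀S₀)).1
      rw [if_pos rfl] at h1
      exact Subgroup.mem_sup_right h1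
    · have h1 := (hy₀ v hv).1
      rw [if_neg hne, div_one] at h1
      exact Subgroup.mem_sup_right h1
  have hxt : x * nrm F E t ∈ LL M a S := by
    refine mem_LL.mpr fun v hv => ?_
    have h1 := (ht v hv).1
    by_cases hvV : v ∈ V
    · rw [if_pos hvV, div_inv_eq_mul, mul_comm] at h1
      exact Subgroup.mem_sup_right h1
    · rw [if_neg hvV, div_one] at h1
      exact Subgroup.mul_mem _ (hxV v hvV) (Subgroup.mem_sup_right h1)
  have htG : nrm F E t ∈ GS M a S := by
    have e1 : nrm F E t = x⁻¹ * (x * nrm F E t) := by rw [inv_mul_cancel_left]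
    rw [e1]
    exact Subgroup.mul_mem _ (unit_le_GS (Subgroup.inv_mem _ hxS)) (LL_le_GS hxt)
  -- `t` is in the group
  have htE : t ∈ GS (M.map E) (io F E a) (ov E S) := by
    have hy₀E : y₀ ∉ GS (M.map E) (io F E a) (ov E S) := fun h => hy₀G (nrm_GS M a S h)
    have hyp := pow_mem_GS (M.map E) (io F E a) y₀ (ov E S)
    obtain ⟨i, hi⟩ := exists_zpow M.prime _ hi0 hip hy₀E hyp t
    have h1 : nrm F E y₀ ^ i ∈ GS M a S := by
      have h2 := nrm_GS M a S hi
      rw [_root_.map_div, map_zpow] at h2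
      have h3 := Subgroup.div_mem _ htG h2
      rwa [div_div_cancel] at h3
    have h4 : (p : ℤ) ∣ i := by
      by_contra hcon
      exact hy₀G (zpow_mem_coprime M.prime (pow_mem_GS M a _ S) hcon h1)
    obtain ⟨j, rfl⟩ := h4
    have h5 : y₀ ^ ((p : ℤ) * j) ∈ GS (M.map E) (io F E a) (ov E S) := by
      rw [zpow_mul, zpow_natCast]
      exact Subgroup.zpow_mem _ hyp j
    have e1 : t = t / y₀ ^ ((p : ℤ) * j) * y₀ ^ ((p : ℤ) * j) := (div_mul_cancel _ _).symm
    rw [e1]
    exact Subgroup.mul_mem _ hi h5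
  obtain ⟨ε, hε, n, hn, hεn⟩ := Subgroup.mem_sup.mp htE
  -- approximation of `n` by a global norm
  have hAf : {w : HeightOneSpectrum (𝓞 E) | ∃ v ∈ A ∪ A₂, Even.Ab w v}.Finite :=
    ov_finite (E := E) (hA.union hA₂)
  obtain ⟨z, hz, hnz⟩ := near_norm (M.map E) (io F E a) n hAf (by
    rintro w ⟨v, hv, hw⟩
    exact mem_LL.mp hn w ⟨v, hAS hv, hw⟩) (fun w => io F E (ρ (be w)))
  refine ⟨(ε * z)⁻¹, ?_, fun v hv w hw => ?_⟩
  · have e1 : x / nrm F E (ε * z)⁻¹ = (x * nrm F E ε) * nrm F E z := by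
      rw [map_inv, div_inv_eq_mul, map_mul, mul_assoc]
    rw [e1]
    refine Subgroup.mul_mem _ (hasse_norm M a _ fun v => ?_) (nrm_mem_NF M hz)
    by_cases hv : v ∈ S
    · have e2 : x * nrm F E ε = x * nrm F E t / nrm F E n := by
        rw [← hεn, map_mul, ← mul_assoc, mul_div_cancel_right]
      rw [e2]
      exact Subgroup.div_mem _ (mem_LL.mp hxt v hv)
        (nrm_local M v a n fun w hw => mem_LL.mp hn w ⟨v, hv, hw⟩)
    · refine unit_norm v (Pr.val_p hSg.pr hv) a _ (hSg.unit v hv) ?_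
      rw [Units.val_mul, map_mul, val_nrm_eq_one v ε, mul_one]
      · exact hxS v hv
      · intro w hw
        refine hε w ?_
        rintro ⟨v', hv', h⟩
        have : v = v' := HeightOneSpectrum.ext (hw.symm.trans h)
        exact hv (this ▸ hv')
  · have hbw : be w = v := below_unique (hbe w) hw
    have hρw : w.valuation E (algebraMap F E (ρ v : F)) ≤ 1 := (val_le_one_iff hw _).mpr (hρ1 v)
    have hρg : w.valuation E (algebraMap F E (ρ v : F)) ≤
        w.valuation E (algebraMap F E (g v : F)) := (Even.val_le_val_iff hw _ _).mpr (hρ2 v)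
    have hvV : v ∉ V := fun h => hv.elim (Set.disjoint_left.mp hVA h) (Set.disjoint_left.mp hVA₂ h)
    have h1 := (ht v (hAS hv)).2 (if_neg hvV) w hw
    have h2 := hnz w ⟨v, hv, hw⟩
    rw [io_val, hbw] at h2
    have h3 := close_mul (w.valuation E) hρw h1 (close_inv (w.valuation E) hρw h2)
    have h4 := close_inv (w.valuation E) hρw h3
    have e1 : (((ε * z)⁻¹ : Eˣ) : E) = ((t : E) * ((n / z : Eˣ) : E)⁻¹)⁻¹ := by
      rw [Units.val_inv_eq_inv_val, ← hεn, Units.val_div_eq_div_val]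
      have hn0 : (n : E) ≠ 0 := n.ne_zero
      have hz0 : (z : E) ≠ 0 := z.ne_zero
      congr 1
      push_cast
      field_simp
    rw [e1]
    exact h4.trans_le hρg

/-- **The two-field norm lemma**, with a second set of places where `y` is close to one. -/
theorem two_norm2 {p : ℕ} (hp : p.Prime) (hp2 : p ≠ 2) {R R' : Type} [Field R] [NumberField R]
    [Field R'] [NumberField R'] [Algebra R R'] [IsGalois R R'] (hdeg : finrank R R' = p) {ζ : R}
    (hζ : IsPrimitiveRoot ζ p) (A : Finset (HeightOneSpectrum (𝓞 R))) :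
    ∃ v0 : HeightOneSpectrum (𝓞 R), v0 ∉ A ∧
      ∀ c : HeightOneSpectrum (𝓞 R) → R, (∀ v ∈ A, c v ≠ 0 ∧ v.valuation R (c v) ≤ 1) →
      ∀ x : R, x ≠ 0 →
        (∀ v ∈ A, v.valuation R (x - 1) < v.valuation R ((p : R) ^ 2 * c v)) →
      ∃ V : Finset (HeightOneSpectrum (𝓞 R)), Disjoint V A ∧
        ∀ (E : Type) [Field E] [NumberField E] [Algebra R E],
          (∀ v : HeightOneSpectrum (𝓞 R), v = v0 ∨ v ∈ V →
            Nonempty (E →ₐ[R] v.adicCompletion R)) →
          ∀ A2 : Finset (HeightOneSpectrum (𝓞 R)), Disjoint V A2 →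
          ∀ g : HeightOneSpectrum (𝓞 R) → R, (∀ v, v ∈ A ∨ v ∈ A2 → g v ≠ 0) →
          ∃ (x1 : R') (y : E), y ≠ 0 ∧ x = Algebra.norm R x1 * Algebra.norm R y ∧
            (∀ v ∈ A, ∀ w : HeightOneSpectrum (𝓞 R'),
              w.asIdeal.comap (algebraMap (𝓞 R) (𝓞 R')) = v.asIdeal →
                w.valuation R' (x1 - 1) < w.valuation R' (algebraMap R R' (c v))) ∧
            (∀ v, v ∈ A ∨ v ∈ A2 → ∀ w : HeightOneSpectrum (𝓞 E),
              w.asIdeal.comap (algebraMap (𝓞 R) (𝓞 E)) = v.asIdeal →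
                w.valuation E (y - 1) < w.valuation E (algebraMap R E (g v))) := by
  classical
  obtain ⟨M, a, θ, σ, Q, -⟩ := exists_kd hp hp2 hdeg
    (hζ.map_of_injective (algebraMap R R').injective)
  obtain ⟨v0, hv0, hmain⟩ := two_norm_kd M Q.ns A.finite_toSet
  refine ⟨v0, fun h => hv0 (Finset.mem_coe.mpr h), fun c hc x hx0 hx => ?_⟩
  have hpR : ((p : R)) ≠ 0 := M.p_ne_zero
  have hpv : ∀ v : HeightOneSpectrum (𝓞 R), v.valuation R (p : R) ≤ 1 := fun v => val_nat_le _ p
  have hplp : ∀ v : HeightOneSpectrum (𝓞 R), v.valuation R ((p : R) ^ 2) ≤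
      v.valuation R (M.l ^ p) := by
    intro v
    rw [map_pow, M.val_p, map_pow, ← pow_mul]
    refine pow_le_pow_right_of_le_one' (M.val_l_le _) ?_
    have := hp.two_le
    omega
  -- the bad places
  have hfin : {v : HeightOneSpectrum (𝓞 R) |
      Units.mk0 x hx0 ∉ NF M a ⊔ LS M (v.valuation R)}.Finite := by
    refine (((finite_ne_one (Units.mk0 x hx0)).union (finite_ne_one a)).union
      (finite_ne_one (Units.mk0 (p : R) hpR))).subset fun v hv => ?_
    by_contra hcon
    simp only [Set.mem_union, Set.mem_ofPred_eq, not_or, not_not] at hcon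
    exact hv (unit_norm v hcon.2 a _ hcon.1.2 hcon.1.1)
  refine ⟨hfin.toFinset, ?_, fun E _ _ _ hhom A2 hVA2 g hg => ?_⟩
  · rw [Finset.disjoint_left]
    intro v hv hvA
    rw [hfin.mem_toFinset] at hv
    refine hv (Subgroup.mem_sup_right (LS_of_close ?_))
    refine (hx v hvA).trans_le ?_
    rw [map_mul]
    calc _ ≤ v.valuation R ((p : R) ^ 2) * 1 := mul_le_mul' le_rfl (hc v hvA).2
      _ ≤ _ := by rw [mul_one]; exact hplp v
  have hfd : FiniteDimensional R E := Module.Finite.of_restrictScalars_finite ℚ R E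
  -- radii for the norm of `y`
  have hη : ∀ v : HeightOneSpectrum (𝓞 R), ∃ η : Rˣ, v ∈ A → ∀ y : E,
      (∀ w : HeightOneSpectrum (𝓞 E), Even.Ab w v →
        w.valuation E (y - 1) < w.valuation E (algebraMap R E η)) →
      v.valuation R (Algebra.norm R y - 1) < v.valuation R ((p : R) * c v) := by
    intro v
    by_cases hv : v ∈ A
    · obtain ⟨η, hη⟩ := Even.norm_near_one (E := E) v
        (Units.mk0 ((p : R) * c v) (mul_ne_zero hpR (hc v hv).1)) (by
          rw [Units.val_mk0, map_mul]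
          exact mul_le_one' (hpv v) (hc v hv).2)
      exact ⟨η, fun _ => hη⟩
    · exact ⟨1, fun h => absurd h hv⟩
  choose η hη using hη
  have hg' : ∀ v : HeightOneSpectrum (𝓞 R), ∃ r : Rˣ, v ∈ A ∨ v ∈ A2 →
      v.valuation R (r : R) ≤ v.valuation R (g v) ∧
        v.valuation R (r : R) ≤ v.valuation R (η v : R) := by
    intro v
    by_cases hv : v ∈ A ∨ v ∈ A2
    · rcases le_total (v.valuation R (g v)) (v.valuation R (η v : R)) with h | h
      · exact ⟨Units.mk0 (g v) (hg v hv), fun _ => ⟨le_rfl, h⟩⟩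
      · exact ⟨η v, fun _ => ⟨h, le_rfl⟩⟩
    · exact ⟨1, fun h => absurd h hv⟩
  choose r hr using hg'
  obtain ⟨y, hy1, hy2⟩ := hmain (Units.mk0 x hx0) (hfin.toFinset : Set _)
    (Finset.finite_toSet _) (by
      rw [Set.disjoint_left]
      intro v hv hvA
      rw [Finset.mem_coe, hfin.mem_toFinset] at hv
      refine hv (Subgroup.mem_sup_right (LS_of_close ?_))
      refine (hx v (Finset.mem_coe.mp hvA)).trans_le ?_
      rw [map_mul]
      calc _ ≤ v.valuation R ((p : R) ^ 2) * 1 :=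
            mul_le_mul' le_rfl (hc v (Finset.mem_coe.mp hvA)).2
        _ ≤ _ := by rw [mul_one]; exact hplp v) (by
      intro v hv
      by_contra h
      exact hv (Finset.mem_coe.mpr (hfin.mem_toFinset.mpr h))) E (by
      rintro v (rfl | hv)
      · exact hhom v (Or.inl rfl)
      · exact hhom v (Or.inr (Finset.mem_coe.mp hv))) (A2 : Set _) A2.finite_toSet (by
      rw [Set.disjoint_left]
      exact fun v hv hv2 => Finset.disjoint_left.mp hVA2 (Finset.mem_coe.mp hv)
        (Finset.mem_coe.mp hv2)) r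
  obtain ⟨e0, he0⟩ := norm_of_mem_NF Q hy1
  have hb : ∀ v ∈ (A : Set (HeightOneSpectrum (𝓞 R))),
      v.valuation R (((Units.mk0 x hx0 / nrm R E y : Rˣ) : R) - 1) <
        v.valuation R ((p : R) * c v) := by
    intro v hvA
    have hvA' := Finset.mem_coe.mp hvA
    have h1 : v.valuation R (Algebra.norm R (y : E) - 1) < v.valuation R ((p : R) * c v) := by
      refine hη v hvA' (y : E) fun w hw => ?_
      exact (hy2 v (Or.inl hvA) w hw).trans_le
        ((Even.val_le_val_iff hw _ _).mpr (hr v (Or.inl hvA')).2)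
    have h2 : v.valuation R (x - 1) < v.valuation R ((p : R) * c v) := by
      refine (hx v hvA').trans_le ?_
      rw [map_mul, map_mul, map_pow, pow_two]
      refine mul_le_mul' ?_ le_rfl
      exact mul_le_of_le_one_left' (hpv v)
    have hle : v.valuation R ((p : R) * c v) ≤ 1 := by
      rw [map_mul]
      exact mul_le_one' (hpv v) (hc v hvA').2
    have h3 := close_mul (v.valuation R) hle h2 (close_inv (v.valuation R) hle h1)
    rw [Units.val_div_eq_div_val, Units.val_mk0, nrm_val, div_eq_mul_inv]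
    exact h3
  obtain ⟨x1, hx1, hx2⟩ := H511.norm_approx_prime hp hp2 hdeg he0
    (S := (A : Set (HeightOneSpectrum (𝓞 R)))) A.finite_toSet c
    (fun v hv => hc v (Finset.mem_coe.mp hv)) hb
  refine ⟨x1, (y : E), y.ne_zero, ?_, fun v hv w hw => hx2 v (Finset.mem_coe.mpr hv) w hw,
    fun v hv w hw => ?_⟩
  · have hNy : Algebra.norm R (y : E) ≠ 0 := Algebra.norm_ne_zero_iff.mpr y.ne_zero
    rw [hx1, Units.val_div_eq_div_val, Units.val_mk0, nrm_val, div_mul_cancel₀ _ hNy]
  · exact (hy2 v (hv.imp Finset.mem_coe.mpr Finset.mem_coe.mpr) w hw).trans_le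
      ((Even.val_le_val_iff hw _ _).mpr (hr v hv).1)

/-- **The two-field norm lemma.** -/
theorem two_norm {p : ℕ} (hp : p.Prime) (hp2 : p ≠ 2) {R R' : Type} [Field R] [NumberField R]
    [Field R'] [NumberField R'] [Algebra R R'] [IsGalois R R'] (hdeg : finrank R R' = p) {ζ : R}
    (hζ : IsPrimitiveRoot ζ p) (A : Finset (HeightOneSpectrum (𝓞 R))) :
    ∃ v0 : HeightOneSpectrum (𝓞 R), v0 ∉ A ∧
      ∀ c : HeightOneSpectrum (𝓞 R) → R, (∀ v ∈ A, c v ≠ 0 ∧ v.valuation R (c v) ≤ 1) →
      ∀ x : R, x ≠ 0 →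
        (∀ v ∈ A, v.valuation R (x - 1) < v.valuation R ((p : R) ^ 2 * c v)) →
      ∃ V : Finset (HeightOneSpectrum (𝓞 R)), Disjoint V A ∧
        ∀ (E : Type) [Field E] [NumberField E] [Algebra R E],
          (∀ v : HeightOneSpectrum (𝓞 R), v = v0 ∨ v ∈ V →
            Nonempty (E →ₐ[R] v.adicCompletion R)) →
          ∀ g : HeightOneSpectrum (𝓞 R) → R, (∀ v ∈ A, g v ≠ 0) →
          ∃ (x1 : R') (y : E), y ≠ 0 ∧ x = Algebra.norm R x1 * Algebra.norm R y ∧
            (∀ v ∈ A, ∀ w : HeightOneSpectrum (𝓞 R'),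
              w.asIdeal.comap (algebraMap (𝓞 R) (𝓞 R')) = v.asIdeal →
                w.valuation R' (x1 - 1) < w.valuation R' (algebraMap R R' (c v))) ∧
            (∀ v ∈ A, ∀ w : HeightOneSpectrum (𝓞 E),
              w.asIdeal.comap (algebraMap (𝓞 R) (𝓞 E)) = v.asIdeal →
                w.valuation E (y - 1) < w.valuation E (algebraMap R E (g v))) := by
  obtain ⟨v0, hv0, h⟩ := two_norm2 hp hp2 hdeg hζ A
  refine ⟨v0, hv0, fun c hc x hx0 hx => ?_⟩
  obtain ⟨V, hV, h1⟩ := h c hc x hx0 hx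
  refine ⟨V, hV, fun E _ _ _ hhom g hg => ?_⟩
  obtain ⟨x1, y, hy, h2, h3, h4⟩ := h1 E hhom ∅ (Finset.disjoint_empty_right V) g
    (fun v hv => hg v (hv.resolve_right (Finset.notMem_empty v)))
  exact ⟨x1, y, hy, h2, h3, fun v hv => h4 v (Or.inl hv)⟩

end Vale.Agent.P011.H929
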