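import Vale.Agent.P011.Even.NormCont
import Vale.Agent.P011.H373.LocNorm
import Vale.Agent.P011.H511.HasseApprox

/-!
Local norms at a place of degree one: an embedding `σ` of `E` in the completion at `v` gives, for
every `b`, elements of `E` whose norm is close to `b` and which are close to `1` at all places
above `v` except the one defined by `σ`.
-/

open NumberField IsDedekindDomain Polynomial Module

namespace Vale.Agent.P011.H929

open Vale.Agent.P011.Arith (Z0 val_above val_lt_val_iff val_lt_one_iff exists_above)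
open Vale.Agent.P011.H373

section dual

variable {k E : Type} [Field k] [Field E] [Algebra k E] [FiniteDimensional k E]
  [Algebra.IsSeparable k E] {ι : Type} [Fintype ι] [DecidableEq ι] (b : Basis ι k E)

theorem repr_eq_trace (z : E) (l : ι) :
    b.repr z l = Algebra.trace k E (z * b.traceDual l) := by
  have h2 := b.traceDual.traceDual_repr_apply z l
  rw [Module.Basis.traceDual_traceDual, Algebra.traceForm_apply] at h2
  exact h2

theorem dual_expand (z : E) : ∑ i, Algebra.trace k E (b i * z) • b.traceDual i = z := by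
  conv_rhs => rw [← b.traceDual.sum_repr z]
  refine Finset.sum_congr rfl fun i _ => ?_
  rw [b.traceDual_repr_apply, Algebra.traceForm_apply, mul_comm]

theorem sum_dual_mul : ∑ i, b.traceDual i * b i = 1 := by
  apply b.traceDual.ext_elem
  intro j
  rw [b.traceDual_repr_apply, b.traceDual_repr_apply, Algebra.traceForm_apply,
    Algebra.traceForm_apply, one_mul, Finset.sum_mul, map_sum,
    Algebra.trace_eq_matrix_trace b (b j), Matrix.trace]
  refine Finset.sum_congr rfl fun i _ => ?_
  rw [Matrix.diag_apply, Algebra.leftMulMatrix_eq_repr_mul, repr_eq_trace]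
  congr 1
  ring

variable {Ω : Type} [Field Ω] [Algebra k Ω] (σ : E →ₐ[k] Ω)

theorem dual_mul (y : E) (l : ι) :
    ∑ i, σ (b.traceDual i) * algebraMap k Ω (b.repr (y * b i) l) = σ y * σ (b.traceDual l) := by
  rw [← map_mul, ← dual_expand b (y * b.traceDual l), map_sum]
  refine Finset.sum_congr rfl fun i _ => ?_
  rw [map_smul, Algebra.smul_def, mul_comm, repr_eq_trace]
  congr 3
  ring

/-- The idempotent of `σ`: its matrix. -/
theorem sum_matrix : ∑ i, σ (b.traceDual i) • (Algebra.leftMulMatrix b (b i)).map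
    (algebraMap k Ω) = Matrix.vecMulVec (fun i => σ (b.traceDual i)) (fun j => σ (b j)) := by
  ext l j
  rw [Matrix.sum_apply, Matrix.vecMulVec_apply, mul_comm, ← dual_mul b σ (b j) l]
  refine Finset.sum_congr rfl fun i _ => ?_
  rw [Matrix.smul_apply, Matrix.map_apply, Algebra.leftMulMatrix_eq_repr_mul, smul_eq_mul,
    mul_comm (b i)]

theorem det_idem (β : Ω) : (1 + (β - 1) • ∑ i, σ (b.traceDual i) •
    (Algebra.leftMulMatrix b (b i)).map (algebraMap k Ω)).det = β := by
  have h1 : (β - 1) • Matrix.vecMulVec (fun i => σ (b.traceDual i)) (fun j => σ (b j)) =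
      Matrix.replicateCol Unit (fun i => (β - 1) * σ (b.traceDual i)) *
        Matrix.replicateRow Unit (fun j => σ (b j)) := by
    ext i j
    rw [Matrix.smul_apply, Matrix.vecMulVec_apply, Matrix.mul_apply]
    simp only [Matrix.replicateCol_apply, Matrix.replicateRow_apply, Finset.univ_unique,
      Finset.sum_const, Finset.card_singleton, one_smul, smul_eq_mul]
    ring
  rw [sum_matrix, h1, Matrix.det_one_add_replicateCol_mul_replicateRow]
  have h2 : (fun j => σ (b j)) ⬝ᵥ (fun i => (β - 1) * σ (b.traceDual i)) = β - 1 := by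
    have h3 : σ (∑ i, b.traceDual i * b i) = 1 := by rw [sum_dual_mul, map_one]
    rw [map_sum] at h3
    rw [dotProduct]
    calc ∑ i, σ (b i) * ((β - 1) * σ (b.traceDual i)) =
          (β - 1) * ∑ i, σ (b.traceDual i * b i) := by
          rw [Finset.mul_sum]
          refine Finset.sum_congr rfl fun i _ => ?_
          rw [map_mul]
          ring
      _ = β - 1 := by rw [h3, mul_one]
  rw [h2]
  ring

end dual

variable {k E : Type} [Field k] [NumberField k] [Field E] [NumberField E] [Algebra k E]
  {v : HeightOneSpectrum (𝓞 k)}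

/-- The place `w` is not the place defined by the embedding `σ`. -/
def NotPl (σ : E →ₐ[k] v.adicCompletion k) (w : HeightOneSpectrum (𝓞 E)) : Prop :=
  ∃ y : E, ¬ (w.valuation E y < 1 ↔ Valued.v (σ y) < (1 : Z0))

/-- Only one place above `v` is defined by `σ`. -/
theorem exists_pl (σ : E →ₐ[k] v.adicCompletion k) : ∃ w : HeightOneSpectrum (𝓞 E),
    Even.Ab w v ∧ ∀ w' : HeightOneSpectrum (𝓞 E), Even.Ab w' v → w' ≠ w → NotPl σ w' := by
  by_cases h : ∃ w : HeightOneSpectrum (𝓞 E), Even.Ab w v ∧ ¬ NotPl σ w
  · obtain ⟨w, hw, hσ⟩ := h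
    refine ⟨w, hw, fun w' _ hne => ?_⟩
    by_contra hcon
    rw [NotPl] at hσ hcon
    push Not at hσ hcon
    refine hne (HeightOneSpectrum.ext (Ideal.ext fun x => ?_))
    rw [← w'.valuation_lt_one_iff_mem (K := E) x, ← w.valuation_lt_one_iff_mem (K := E) x]
    exact (hcon (x : E)).trans (hσ (x : E)).symm
  · push Not at h
    obtain ⟨w, hw⟩ := exists_above (E := E) v
    exact ⟨w, hw, fun w' hw' _ => h w' hw'⟩

theorem exists_down {w : HeightOneSpectrum (𝓞 E)} (hw : Even.Ab w v) {δ : Z0} (hδ : δ ≠ 0) :
    ∃ δ' : Z0, δ' ≠ 0 ∧ ∀ x : k, v.valuation k x < δ' →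
      w.valuation E (algebraMap k E x) < δ := by
  obtain ⟨e, he, hval⟩ := val_above (F := k) (E := E) hw
  have hm0 : min δ 1 ≠ 0 := by
    rcases min_choice δ 1 with h | h <;> rw [h]
    · exact hδ
    · exact one_ne_zero
  refine ⟨min δ 1, hm0, fun x hx => ?_⟩
  rw [hval]
  have hx1 : v.valuation k x ≤ 1 := hx.le.trans (min_le_right _ _)
  calc v.valuation k x ^ e ≤ v.valuation k x ^ 1 :=
        pow_le_pow_right_of_le_one' hx1 (Nat.one_le_iff_ne_zero.mpr he)
    _ = v.valuation k x := pow_one _
    _ < min δ 1 := hx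
    _ ≤ δ := min_le_left _ _

theorem exists_scale {w : HeightOneSpectrum (𝓞 E)} (z : E) {δ : Z0} (hδ : δ ≠ 0) :
    ∃ δ' : Z0, δ' ≠ 0 ∧ ∀ x : E, w.valuation E x < δ' → w.valuation E (z * x) < δ := by
  by_cases hz : z = 0
  · refine ⟨1, one_ne_zero, fun x _ => ?_⟩
    rw [hz, zero_mul, map_zero]
    exact zero_lt_iff.mpr hδ
  have hz0 : w.valuation E z ≠ 0 := (Valuation.ne_zero_iff _).mpr hz
  refine ⟨δ / w.valuation E z, div_ne_zero hδ hz0, fun x hx => ?_⟩
  rw [lt_div_iff₀ (zero_lt_iff.mpr hz0)] at hx
  rw [map_mul, mul_comm]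
  exact hx

theorem val_map (x : k) :
    Valued.v (algebraMap k (v.adicCompletion k) x) = v.valuation k x :=
  v.valuedAdicCompletion_eq_valuation' x

theorem exists_approx (α : v.adicCompletion k) {γ : Z0} (hγ : γ ≠ 0) :
    ∃ x : k, Valued.v (algebraMap k (v.adicCompletion k) x - α) < γ := by
  obtain ⟨x, hx⟩ := (v.denseRange_algebraMap (K := k)).exists_mem_open (isOpen_near v α hγ)
    ⟨α, by show Valued.v (α - α) < γ; rw [sub_self, map_zero]; exact zero_lt_iff.mpr hγ⟩
  exact ⟨x, hx⟩

/-- An approximation of `σ y` which is far from `y` at `w`. -/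
theorem exists_wit {σ : E →ₐ[k] v.adicCompletion k} {w : HeightOneSpectrum (𝓞 E)}
    (hw : Even.Ab w v) (h : NotPl σ w) {γ : Z0} (hγ : γ ≠ 0) :
    ∃ (y : E) (g : k), Valued.v (algebraMap k (v.adicCompletion k) g - σ y) < γ ∧
      1 ≤ w.valuation E (y - algebraMap k E g) := by
  obtain ⟨y, hy⟩ := h
  have hm0 : min γ 1 ≠ 0 := by
    rcases min_choice γ 1 with h | h <;> rw [h]
    · exact hγ
    · exact one_ne_zero
  obtain ⟨g, hg⟩ := exists_approx (σ y) hm0
  refine ⟨y, g, hg.trans_le (min_le_left _ _), ?_⟩
  have hg1 : Valued.v (algebraMap k (v.adicCompletion k) g - σ y) < (1 : Z0) :=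
    hg.trans_le (min_le_right _ _)
  by_cases h1 : Valued.v (σ y) < (1 : Z0)
  · have h2 : 1 ≤ w.valuation E y := by
      rw [← not_lt]
      exact fun h3 => hy (iff_of_true h3 h1)
    have h3 : v.valuation k g < 1 := by
      rw [← val_map]
      have e : algebraMap k (v.adicCompletion k) g =
          (algebraMap k (v.adicCompletion k) g - σ y) + σ y := by ring
      rw [e]
      exact (Valued.v.map_add _ _).trans_lt (max_lt hg1 h1)
    have h4 : w.valuation E (algebraMap k E g) < 1 := (val_lt_one_iff hw g).mpr h3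
    rw [Valuation.map_sub_eq_of_lt_left _ (h4.trans_le h2)]
    exact h2
  · have h2 : w.valuation E y < 1 := by
      by_contra h3
      exact hy (iff_of_false h3 h1)
    have h3 : 1 ≤ v.valuation k g := by
      rw [← val_map]
      have e : algebraMap k (v.adicCompletion k) g =
          σ y - (σ y - algebraMap k (v.adicCompletion k) g) := by ring
      have h5 : Valued.v (σ y - algebraMap k (v.adicCompletion k) g) < Valued.v (σ y) := by
        rw [Valuation.map_sub_swap]
        exact hg1.trans_le (not_lt.mp h1)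
      rw [e, Valuation.map_sub_eq_of_lt_left _ h5]
      exact not_lt.mp h1
    have h4 : 1 ≤ w.valuation E (algebraMap k E g) := by
      rw [← not_lt, val_lt_one_iff hw g]
      exact not_lt.mpr h3
    rw [Valuation.map_sub_swap, Valuation.map_sub_eq_of_lt_left _ (h2.trans_le h4)]
    exact h4

/-- **Local norms at the place of an embedding.** -/
theorem loc_pl (σ : E →ₐ[k] v.adicCompletion k) {b : k} (hb : b ≠ 0) {γ : Z0} (hγ : γ ≠ 0)
    (T : Finset (HeightOneSpectrum (𝓞 E))) (hT : ∀ w ∈ T, Even.Ab w v ∧ NotPl σ w)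
    (δ : HeightOneSpectrum (𝓞 E) → Z0) (hδ : ∀ w ∈ T, δ w ≠ 0) :
    ∃ e : E, v.valuation k (b / Algebra.norm k e - 1) < γ ∧
      ∀ w ∈ T, w.valuation E (e - 1) < δ w := by
  classical
  have hfd : FiniteDimensional k E := Module.Finite.of_restrictScalars_finite ℚ k E
  let bas := Module.finBasis k E
  set ι := algebraMap k (v.adicCompletion k) with hι
  set u : Fin (finrank k E) → v.adicCompletion k := fun i => σ (bas.traceDual i) with hu
  set F : (Fin (finrank k E) → v.adicCompletion k) → v.adicCompletion k := fun x =>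
    (1 + (ι b - 1) • ∑ i, x i • (Algebra.leftMulMatrix bas (bas i)).map ι).det with hF
  have hFc : Continuous F := by
    apply Continuous.matrix_det
    have h1 : Continuous fun x : Fin (finrank k E) → v.adicCompletion k =>
        ∑ i, x i • (Algebra.leftMulMatrix bas (bas i)).map ι :=
      continuous_finsetSum _ fun i _ => (continuous_apply i).smul continuous_const
    have h2 : Continuous fun x : Fin (finrank k E) → v.adicCompletion k =>
        (ι b - 1) • ∑ i, x i • (Algebra.leftMulMatrix bas (bas i)).map ι :=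
      h1.const_smul (ι b - 1)
    exact continuous_const.add h2
  have hFu : F u = ι b := det_idem bas σ (ι b)
  have hFk : ∀ y : Fin (finrank k E) → k, F (fun i => ι (y i)) =
      ι (Algebra.norm k (1 + algebraMap k E (b - 1) * ∑ i, y i • bas i)) := by
    intro y
    have h1 : (1 + (ι b - 1) • ∑ i, ι (y i) • (Algebra.leftMulMatrix bas (bas i)).map ι) =
        ι.mapMatrix (Algebra.leftMulMatrix bas
          (1 + algebraMap k E (b - 1) * ∑ i, y i • bas i)) := by
      rw [map_add, map_one, map_add, map_one, ← Algebra.smul_def, map_smul, map_sum]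
      congr 1
      have h2 : ∀ (c : k) (A : Matrix (Fin (finrank k E)) (Fin (finrank k E)) k),
          ι.mapMatrix (c • A) = ι c • ι.mapMatrix A := by
        intro c A
        ext i j
        simp
      rw [h2, map_sub, map_one, map_sum]
      congr 1
      refine Finset.sum_congr rfl fun i _ => ?_
      rw [map_smul, h2]
      rfl
    show (1 + (ι b - 1) • ∑ i, ι (y i) • (Algebra.leftMulMatrix bas (bas i)).map ι).det = _
    rw [h1, Algebra.norm_eq_matrix_det bas, RingHom.map_det]
  have hm0 : min γ 1 * v.valuation k b ≠ 0 := by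
    refine mul_ne_zero ?_ ((Valuation.ne_zero_iff _).mpr hb)
    rcases min_choice γ 1 with h | h <;> rw [h]
    · exact hγ
    · exact one_ne_zero
  have hopen : IsOpen (F ⁻¹' {y | Valued.v (y - ι b) < min γ 1 * v.valuation k b}) :=
    (isOpen_near v (ι b) hm0).preimage hFc
  -- the conditions at the places of `T`
  have hW : ∀ w : HeightOneSpectrum (𝓞 E), ∃ (y : E) (g : k) (δ1 : Z0), w ∈ T →
      δ1 ≠ 0 ∧ 1 ≤ w.valuation E (y - algebraMap k E g) ∧
      (∀ l, Valued.v (∑ i, u i * ι (bas.repr (y * bas i) l) - ι g * u l) < δ1) ∧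
      ∀ (x : k) (l : Fin (finrank k E)), v.valuation k x < δ1 →
        w.valuation E (algebraMap k E (b - 1) * (algebraMap k E x * bas l)) < δ w := by
    intro w
    by_cases hw : w ∈ T
    · obtain ⟨hwv, hwn⟩ := hT w hw
      choose d hd0 hd using fun l : Fin (finrank k E) =>
        exists_scale (w := w) (algebraMap k E (b - 1) * bas l) (hδ w hw)
      choose d' hd0' hd' using fun l : Fin (finrank k E) => exists_down (v := v) hwv (hd0 l)
      obtain ⟨δ1, hδ10, hδ1⟩ := H511.exists_lb Finset.univ d' fun l _ => hd0' l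
      obtain ⟨m, hm, hum⟩ := H511.exists_ub Finset.univ fun l => Valued.v (u l)
      obtain ⟨y, g, hg, hyg⟩ := exists_wit hwv hwn (div_ne_zero hδ10 hm)
      refine ⟨y, g, δ1, fun _ => ⟨hδ10, hyg, fun l => ?_, fun x l hx => ?_⟩⟩
      · have h1 := dual_mul bas σ y l
        have e : ∑ i, u i * ι (bas.repr (y * bas i) l) - ι g * u l = -((ι g - σ y) * u l) := by
          rw [show ∑ i, u i * ι (bas.repr (y * bas i) l) = σ y * u l from h1]
          ring
        rw [e, Valuation.map_neg, map_mul]
        rw [lt_div_iff₀ (zero_lt_iff.mpr hm)] at hg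
        exact lt_of_le_of_lt (mul_le_mul' le_rfl (hum l (Finset.mem_univ l))) hg
      · have e : algebraMap k E (b - 1) * (algebraMap k E x * bas l) =
            (algebraMap k E (b - 1) * bas l) * algebraMap k E x := by ring
        rw [e]
        exact hd l _ (hd' l x (hx.trans_le (hδ1 l (Finset.mem_univ l))))
    · exact ⟨0, 0, 1, fun h => absurd h hw⟩
  choose y g δ1 hyg using hW
  have hopenW : ∀ w ∈ T, IsOpen {x : Fin (finrank k E) → v.adicCompletion k |
      ∀ l, Valued.v (∑ i, x i * ι (bas.repr (y w * bas i) l) - ι (g w) * x l) < δ1 w} := by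
    intro w hw
    have h1 : {x : Fin (finrank k E) → v.adicCompletion k |
        ∀ l, Valued.v (∑ i, x i * ι (bas.repr (y w * bas i) l) - ι (g w) * x l) < δ1 w} =
        ⋂ l, (fun x : Fin (finrank k E) → v.adicCompletion k =>
          ∑ i, x i * ι (bas.repr (y w * bas i) l) - ι (g w) * x l) ⁻¹'
            {z | Valued.v (z - 0) < δ1 w} := by
      ext x
      simp
    rw [h1]
    refine isOpen_iInter_of_finite fun l => (isOpen_near v 0 (hyg w hw).1).preimage ?_
    refine Continuous.sub (continuous_finsetSum _ fun i _ => ?_) ?_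
    · exact (continuous_apply i).mul continuous_const
    · exact continuous_const.mul (continuous_apply l)
  have hdense : DenseRange (Pi.map (fun (_ : Fin (finrank k E)) =>
      (ι : k → v.adicCompletion k))) :=
    DenseRange.piMap fun _ => v.denseRange_algebraMap (K := k)
  obtain ⟨f, hf⟩ := hdense.exists_mem_open
    (hopen.inter (isOpen_biInter_finset hopenW)) ⟨u, by
      refine ⟨?_, ?_⟩
      · show Valued.v (F u - ι b) < _
        rw [hFu, sub_self, map_zero]
        exact zero_lt_iff.mpr hm0
      · rw [Set.mem_iInter₂]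
        exact fun w hw => (hyg w hw).2.2.1⟩
  obtain ⟨hf1, hf2⟩ := hf
  rw [Set.mem_iInter₂] at hf2
  refine ⟨1 + algebraMap k E (b - 1) * ∑ i, f i • bas i, ?_, fun w hw => ?_⟩
  · have h1 : Valued.v (F (fun i => ι (f i)) - ι b) < min γ 1 * v.valuation k b := hf1
    rw [hFk, ← map_sub, val_map] at h1
    set N := Algebra.norm k (1 + algebraMap k E (b - 1) * ∑ i, f i • bas i) with hN
    have hvb : v.valuation k b ≠ 0 := (Valuation.ne_zero_iff _).mpr hb
    have h2 : v.valuation k (N - b) < v.valuation k b := by
      refine h1.trans_le ?_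
      calc min γ 1 * v.valuation k b ≤ 1 * v.valuation k b :=
            mul_le_mul' (min_le_right _ _) le_rfl
        _ = _ := one_mul _
    have h3 : v.valuation k N = v.valuation k b := by
      have e : N = (N - b) + b := by ring
      rw [e, Valuation.map_add_eq_of_lt_right _ h2]
    have hN0 : N ≠ 0 := by
      intro h0
      rw [h0, map_zero] at h3
      exact hvb h3.symm
    have h4 : b / N - 1 = -(N - b) / N := by
      field_simp
      ring
    rw [h4, map_div₀, Valuation.map_neg, h3, div_lt_iff₀ (zero_lt_iff.mpr hvb)]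
    exact h1.trans_le (mul_le_mul' (min_le_left _ _) le_rfl)
  · obtain ⟨hδ10, hyg1, -, hd⟩ := hyg w hw
    have h1 : ∀ l, v.valuation k (∑ i, f i * bas.repr (y w * bas i) l - g w * f l) < δ1 w := by
      intro l
      have h2 : Valued.v (∑ i, ι (f i) * ι (bas.repr (y w * bas i) l) - ι (g w) * ι (f l)) <
        δ1 w := hf2 w hw l
      rw [← val_map, map_sub, map_sum, map_mul]
      simp only [map_mul]
      exact h2
    have h2 : (y w - algebraMap k E (g w)) * (algebraMap k E (b - 1) * ∑ i, f i • bas i) =
        ∑ l, algebraMap k E (b - 1) *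
          (algebraMap k E (∑ i, f i * bas.repr (y w * bas i) l - g w * f l) * bas l) := by
      have h3 : y w * ∑ i, f i • bas i =
          ∑ l, algebraMap k E (∑ i, f i * bas.repr (y w * bas i) l) * bas l := by
        have h4 : ∀ i, y w * (f i • bas i) =
            ∑ l, algebraMap k E (f i * bas.repr (y w * bas i) l) * bas l := by
          intro i
          rw [mul_smul_comm]
          conv_lhs => rw [← bas.sum_repr (y w * bas i)]
          rw [Finset.smul_sum]
          refine Finset.sum_congr rfl fun l _ => ?_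
          rw [smul_smul, Algebra.smul_def]
        rw [Finset.mul_sum, Finset.sum_congr rfl fun i _ => h4 i, Finset.sum_comm]
        refine Finset.sum_congr rfl fun l _ => ?_
        rw [map_sum, Finset.sum_mul]
      rw [← Finset.mul_sum, mul_left_comm, sub_mul, h3]
      congr 1
      simp only [map_sub, sub_mul, Finset.sum_sub_distrib]
      congr 1
      rw [Finset.mul_sum]
      refine Finset.sum_congr rfl fun l _ => ?_
      rw [Algebra.smul_def, map_mul]
      ring
    have h3 : w.valuation E ((y w - algebraMap k E (g w)) *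
        (algebraMap k E (b - 1) * ∑ i, f i • bas i)) < δ w := by
      rw [h2]
      exact Valuation.map_sum_lt _ (hδ w hw) fun l _ => hd _ l (h1 l)
    rw [add_sub_cancel_left]
    refine lt_of_le_of_lt ?_ h3
    rw [map_mul (w.valuation E) (y w - algebraMap k E (g w))]
    calc _ = 1 * w.valuation E (algebraMap k E (b - 1) * ∑ i, f i • bas i) := (one_mul _).symm
      _ ≤ _ := mul_le_mul' hyg1 le_rfl

end Vale.Agent.P011.H929
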