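import Vale.Agent.P011.H929.Odd.TwoNorm
import Vale.Agent.P011.H929.Odd.LocPl

/-!
**The two-field norm lemma** with approximation at places of the second field: the element of `E`
is close to `1` at a finite set of places of `E`, given after `E` and its embeddings, which does
not contain the places of these embeddings.
-/

open NumberField IsDedekindDomain Polynomial Module

namespace Vale.Agent.P011.H929

open Vale.Agent.P011.Arith (Z0 exists_above exists_below below_unique ov_finite ov approxVal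
  finite_ne_one val_lt_val_iff val_le_one_iff)
open Vale.Agent.P011.ArP Vale.Agent.P011.H373
open Vale.Agent.P011.H511 (close_mul close_inv one_of_close)

variable {p : ℕ} {F : Type} [Field F] [NumberField F] {E : Type} [Field E] [NumberField E]
  [Algebra F E]

/-- Elements close to given elements at the places above finitely many places. -/
theorem exists_target3 (M : Mu p F) {S : Set (HeightOneSpectrum (𝓞 F))} (hS : S.Finite)
    (c : HeightOneSpectrum (𝓞 F) → Fˣ) (e : HeightOneSpectrum (𝓞 F) → Eˣ)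
    (he : ∀ v ∈ S, nrm F E (e v) / c v ∈ LS M (v.valuation F))
    (ρ : HeightOneSpectrum (𝓞 E) → Eˣ) :
    ∃ y : Eˣ, ∀ v ∈ S, nrm F E y / c v ∈ LS M (v.valuation F) ∧
      ∀ w : HeightOneSpectrum (𝓞 E), Even.Ab w v →
        w.valuation E (((y / e v : Eˣ) : E) - 1) < w.valuation E (ρ w : E) := by
  classical
  rcases S.eq_empty_or_nonempty with rfl | ⟨v₁, hv₁⟩
  · exact ⟨1, by simp⟩
  have hl0 : M.l ^ p ≠ 0 := pow_ne_zero p M.l_ne_zero
  choose η hη using fun v : HeightOneSpectrum (𝓞 F) =>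
    Even.norm_near_one (E := E) v (Units.mk0 (M.l ^ p) hl0) (M.val_lp_le _)
  choose be hbe using fun w : HeightOneSpectrum (𝓞 E) => exists_below (F := F) w
  have hbe' : ∀ {v : HeightOneSpectrum (𝓞 F)} {w : HeightOneSpectrum (𝓞 E)},
      w.asIdeal.comap (algebraMap (𝓞 F) (𝓞 E)) = v.asIdeal → be w = v := fun h =>
    below_unique (hbe _) h
  have hew : ∀ (w : HeightOneSpectrum (𝓞 E)) (x : Eˣ), w.valuation E (x : E) ≠ 0 := fun w x =>
    (Valuation.ne_zero_iff _).mpr x.ne_zero
  have hFw : ∀ (w : HeightOneSpectrum (𝓞 E)) (x : Fˣ),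
      w.valuation E (algebraMap F E (x : F)) ≠ 0 := fun w x =>
    (Valuation.ne_zero_iff _).mpr ((_root_.map_ne_zero _).mpr x.ne_zero)
  obtain ⟨y, hy, -⟩ := approxVal (F := E) (ov_finite (E := E) hS).toFinset
    (fun w => (e (be w) : E))
    (fun w => w.valuation E (e (be w) : E) *
      min 1 (min (w.valuation E (algebraMap F E (η (be w) : F)))
        (w.valuation E (ρ w : E))))
    (fun w _ => mul_ne_zero (hew _ _) (min_ne one_ne_zero (min_ne (hFw _ _) (hew _ _))))
    (fun _ => 0) (ε := 1) one_pos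
  have hy' : ∀ v ∈ S, ∀ w : HeightOneSpectrum (𝓞 E), Even.Ab w v →
      w.valuation E (y - e v) < w.valuation E (e v : E) *
        min 1 (min (w.valuation E (algebraMap F E (η v : F)))
          (w.valuation E (ρ w : E))) := by
    intro v hv w hw
    have h1 := hy w ((ov_finite (E := E) hS).mem_toFinset.mpr ⟨v, hv, hw⟩)
    rw [hbe' hw] at h1
    exact h1
  have hy0 : y ≠ 0 := by
    rintro rfl
    obtain ⟨w, hw⟩ := exists_above (E := E) v₁
    have h1 := hy' v₁ hv₁ w hw
    rw [zero_sub, Valuation.map_neg] at h1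
    refine absurd h1 (not_lt.mpr ?_)
    calc _ ≤ w.valuation E (e v₁ : E) * 1 := mul_le_mul' le_rfl (min_le_left _ _)
      _ = _ := mul_one _
  have hq : ∀ v ∈ S, ∀ w : HeightOneSpectrum (𝓞 E), Even.Ab w v →
      w.valuation E (((Units.mk0 y hy0 / e v : Eˣ) : E) - 1) <
        min (w.valuation E (algebraMap F E (η v : F))) (w.valuation E (ρ w : E)) := by
    intro v hv w hw
    have h3 := hy' v hv w hw
    have e1 : ((Units.mk0 y hy0 / e v : Eˣ) : E) - 1 = (y - e v) / e v := by
      rw [Units.val_div_eq_div_val, Units.val_mk0]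
      have := (e v).ne_zero
      field_simp
    rw [e1, map_div₀, div_lt_iff₀ (zero_lt_iff.mpr (hew w (e v))), mul_comm]
    exact h3.trans_le (mul_le_mul' le_rfl (min_le_right _ _))
  refine ⟨Units.mk0 y hy0, fun v hv => ⟨?_, fun w hw =>
    (hq v hv w hw).trans_le (min_le_right _ _)⟩⟩
  have h2 : nrm F E (Units.mk0 y hy0 / e v) ∈ LS M (v.valuation F) :=
    LS_of_close (hη v _ fun w hw => (hq v hv w hw).trans_le (min_le_left _ _))
  have h4 := Subgroup.mul_mem _ h2 (he v hv)
  have e2 : nrm F E (Units.mk0 y hy0 / e v) * (nrm F E (e v) / c v) =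
      nrm F E (Units.mk0 y hy0) / c v := by
    rw [_root_.map_div, ← mul_div_assoc, div_mul_cancel]
  rwa [e2] at h4

/-- **The two-field norm lemma**, Kummer form, with approximation at places of `E`. -/
theorem two_norm_kd3 (M : Mu p F) {a : Fˣ} (ha : a ∉ Pw p F)
    {A : Set (HeightOneSpectrum (𝓞 F))} (hA : A.Finite) :
    ∃ v₀ : HeightOneSpectrum (𝓞 F), v₀ ∉ A ∧ ∀ (x : Fˣ) (V : Set (HeightOneSpectrum (𝓞 F))),
      V.Finite → Disjoint V A → (∀ v ∉ V, x ∈ NF M a ⊔ LS M (v.valuation F)) →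
      ∀ (E : Type) [Field E] [NumberField E] [Algebra F E],
        Nonempty (E →ₐ[F] v₀.adicCompletion F) →
        ∀ (σ : ∀ v : HeightOneSpectrum (𝓞 F), v ∈ V → (E →ₐ[F] v.adicCompletion F))
          (A₂ : Set (HeightOneSpectrum (𝓞 E))), A₂.Finite →
        (∀ w ∈ A₂, ∀ (v : HeightOneSpectrum (𝓞 F)) (hv : v ∈ V), Even.Ab w v →
          NotPl (σ v hv) w) →
        ∀ g : HeightOneSpectrum (𝓞 E) → Eˣ, ∃ y : Eˣ, x / nrm F E y ∈ NF M a ∧
          ∀ w : HeightOneSpectrum (𝓞 E), (w ∈ A₂ ∨ ∃ v ∈ A, Even.Ab w v) →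
            w.valuation E ((y : E) - 1) < w.valuation E (g w : E) := by
  classical
  obtain ⟨v₀, z₀, S₀, hv₀A, hv₀S₀, hS₀f, hav₀, hgood, hgen⟩ := exists_gen M ha hA
  refine ⟨v₀, hv₀A, fun x V hVf hVA hxV E _ _ _ hhom₀ σ A₂ hA₂ hσ g => ?_⟩
  have hfd : FiniteDimensional F E := Module.Finite.of_restrictScalars_finite ℚ F E
  -- `a` is not a `p`-th power in `E`
  have haE : io F E a ∉ Pw p E := by
    intro h
    refine NF_sup_ne_top M v₀ a hav₀ (eq_top_iff.mpr fun z _ => ?_)
    obtain ⟨e, he⟩ := loc_hom (E := E) v₀ hhom₀ z.ne_zero (M.val_lp_ne (v₀.valuation F))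
    have he0 : e ≠ 0 := by
      rintro rfl
      rw [Algebra.norm_zero, div_zero, zero_sub, Valuation.map_neg, map_one] at he
      exact absurd he (not_lt.mpr (M.val_lp_le _))
    have h1 : z / nrm F E (Units.mk0 e he0) ∈ LS M (v₀.valuation F) := by
      refine LS_of_close ?_
      rw [Units.val_div_eq_div_val, nrm_val, Units.val_mk0]
      exact he
    have h2 : nrm F E (Units.mk0 e he0) ∈ NF M a ⊔ LS M (v₀.valuation F) := by
      refine nrm_local M v₀ a _ fun w _ => ?_
      rw [NF_eq_top (M.map E) h, top_sup_eq]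
      exact Subgroup.mem_top _
    have e1 : z = z / nrm F E (Units.mk0 e he0) * nrm F E (Units.mk0 e he0) :=
      (div_mul_cancel _ _).symm
    rw [e1]
    exact Subgroup.mul_mem _ (Subgroup.mem_sup_right h1) h2
  obtain ⟨SE, hSE, hgoodE⟩ := exists_good (M.map E) (io F E a) haE
  choose be hbe using fun w : HeightOneSpectrum (𝓞 E) => exists_below (F := F) w
  have hbe' : ∀ {v : HeightOneSpectrum (𝓞 F)} {w : HeightOneSpectrum (𝓞 E)},
      Even.Ab w v → be w = v := fun h => below_unique (hbe _) h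
  set S := S₀ ∪ (A ∪ be '' A₂) ∪ V ∪ {v | v.valuation F (x : F) ≠ 1} ∪ be '' SE with hS
  have hSf : S.Finite :=
    (((hS₀f.union (hA.union (hA₂.image _))).union hVf).union (finite_ne_one x)).union
      (hSE.image _)
  have hS₀S : S₀ ⊆ S := fun v hv => Or.inl (Or.inl (Or.inl (Or.inl hv)))
  have hAS : A ∪ be '' A₂ ⊆ S := fun v hv => Or.inl (Or.inl (Or.inl (Or.inr hv)))
  have hxS : x ∈ S.unit F := by
    intro v hv
    by_contra h
    exact hv (Or.inl (Or.inr h))
  have hSg : Good M a S := hgood S hS₀S hSf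
  have hSEg : Good (M.map E) (io F E a) (ov E S) :=
    hgoodE _ (fun w hw => ⟨be w, Or.inr ⟨w, hw, rfl⟩, hbe w⟩) (ov_finite hSf)
  obtain ⟨hi0, hip⟩ := GS_index (M.map E) hSEg
  -- radii
  obtain ⟨ρ, hρ1, hρ2⟩ := exists_small g
  -- local elements
  have hloc : ∀ v : HeightOneSpectrum (𝓞 F), ∃ e : Eˣ, (v ∉ V → e = 1) ∧
      nrm F E e / (if v ∈ V then x⁻¹ else 1) ∈ LS M (v.valuation F) ∧
      ∀ w ∈ A₂, Even.Ab w v → w.valuation E ((e : E) - 1) < w.valuation E (ρ w : E) := by
    intro v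
    by_cases hv : v ∈ V
    · obtain ⟨e, he, he2⟩ := loc_pl (σ v hv) (b := ((x⁻¹ : Fˣ) : F)) (Units.ne_zero _)
        (M.val_lp_ne (v.valuation F)) (hA₂.toFinset.filter fun w => Even.Ab w v)
        (fun w hw => by
          rw [Finset.mem_filter, hA₂.mem_toFinset] at hw
          exact ⟨hw.2, hσ w hw.1 v hv hw.2⟩)
        (fun w => w.valuation E (ρ w : E))
        (fun w _ => (Valuation.ne_zero_iff _).mpr (ρ w).ne_zero)
      have he0 : e ≠ 0 := by
        rintro rfl
        rw [Algebra.norm_zero, div_zero, zero_sub, Valuation.map_neg, map_one] at he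
        exact absurd he (not_lt.mpr (M.val_lp_le _))
      refine ⟨Units.mk0 e he0, fun h => absurd hv h, ?_, fun w hw hwv => ?_⟩
      · rw [if_pos hv]
        have h2 : x⁻¹ / nrm F E (Units.mk0 e he0) ∈ LS M (v.valuation F) := by
          refine LS_of_close ?_
          rw [Units.val_div_eq_div_val, nrm_val, Units.val_mk0]
          exact he
        have h3 := Subgroup.inv_mem _ h2
        rwa [inv_div] at h3
      · exact he2 w (by
          rw [Finset.mem_filter, hA₂.mem_toFinset]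
          exact ⟨hw, hwv⟩)
    · refine ⟨1, fun _ => rfl, ?_, fun w _ _ => ?_⟩
      · rw [if_neg hv, map_one, div_one]
        exact Subgroup.one_mem _
      · rw [Units.val_one, sub_self, map_zero]
        exact zero_lt_iff.mpr ((Valuation.ne_zero_iff _).mpr (ρ w).ne_zero)
  choose e he1 he2 he3 using hloc
  -- the elements `t` and `y₀`
  obtain ⟨t, ht⟩ := exists_target3 (E := E) M hSf (fun v => if v ∈ V then x⁻¹ else 1) e
    (fun v _ => he2 v) ρ
  obtain ⟨y₀, hy₀⟩ := exists_target (E := E) M hSf (fun v => if v = v₀ then z₀ else 1) (by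
    intro v _
    by_cases hv : v = v₀
    · exact Or.inr (hv ▸ hhom₀)
    · exact Or.inl (if_neg hv)) (fun _ => 1)
  have hy₀G : nrm F E y₀ ∉ GS M a S := by
    refine hgen S hS₀S hSf _ ?_ fun v hv hne => ?_
    · have h1 := (hy₀ v₀ (hS₀S hv₀S₀)).1
      rw [if_pos rfl] at h1
      exact Subgroup.mem_sup_right h1
    · have h1 := (hy₀ v hv).1
      rw [if_neg hne, div_one] at h1
      exact Subgroup.mem_sup_right h1
  have hxt : x * nrm F E t ∈ LL M a S := by
    refine mem_LL.mpr fun v hv => ?_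
    have h1 := (ht v hv).1
    by_cases hvV : v ∈ V
    · rw [if_pos hvV, div_inv_eq_mul, mul_comm] at h1
      exact Subgroup.mem_sup_right h1
    · rw [if_neg hvV, div_one] at h1
      exact Subgroup.mul_mem _ (hxV v hvV) (Subgroup.mem_sup_right h1)
  have htG : nrm F E t ∈ GS M a S := by
    have e1 : nrm F E t = x⁻¹ * (x * nrm F E t) := by rw [inv_mul_cancel_left]
    rw [e1]
    exact Subgroup.mul_mem _ (unit_le_GS (Subgroup.inv_mem _ hxS)) (LL_le_GS hxt)
  -- `t` is in the group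
  have htE : t ∈ GS (M.map E) (io F E a) (ov E S) := by
    have hy₀E : y₀ ∉ GS (M.map E) (io F E a) (ov E S) := fun h => hy₀G (nrm_GS M a S h)
    have hyp := pow_mem_GS (M.map E) (io F E a) y₀ (ov E S)
    obtain ⟨i, hi⟩ := exists_zpow M.prime _ hi0 hip hy₀E hyp t
    have h1 : nrm F E y₀ ^ i ∈ GS M a S := by
      have h2 := nrm_GS M a S hi
      rw [_root_.map_div, map_zpow] at h2
      have h3 := Subgroup.div_mem _ htG h2
      rwa [div_div_cancel] at h3
    have h4 : (p : ℤ) ∣ i := by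
      by_contra hcon
      exact hy₀G (zpow_mem_coprime M.prime (pow_mem_GS M a _ S) hcon h1)
    obtain ⟨j, rfl⟩ := h4
    have h5 : y₀ ^ ((p : ℤ) * j) ∈ GS (M.map E) (io F E a) (ov E S) := by
      rw [zpow_mul, zpow_natCast]
      exact Subgroup.zpow_mem _ hyp j
    have e1 : t = t / y₀ ^ ((p : ℤ) * j) * y₀ ^ ((p : ℤ) * j) := (div_mul_cancel _ _).symm
    rw [e1]
    exact Subgroup.mul_mem _ hi h5
  obtain ⟨ε, hε, n, hn, hεn⟩ := Subgroup.mem_sup.mp htE
  -- the places where `y` is close to one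
  have hwS : ∀ w : HeightOneSpectrum (𝓞 E), (w ∈ A₂ ∨ ∃ v ∈ A, Even.Ab w v) → be w ∈ S := by
    rintro w (hw | ⟨v, hv, hw⟩)
    · exact hAS (Or.inr ⟨w, hw, rfl⟩)
    · rw [hbe' hw]
      exact hAS (Or.inl hv)
  have hAf : {w : HeightOneSpectrum (𝓞 E) | w ∈ A₂ ∨ ∃ v ∈ A, Even.Ab w v}.Finite := by
    refine (hA₂.union (ov_finite (E := E) hA)).subset fun w hw => ?_
    rcases hw with hw | hw
    · exact Or.inl hw
    · exact Or.inr hw
  have htw : ∀ w : HeightOneSpectrum (𝓞 E), (w ∈ A₂ ∨ ∃ v ∈ A, Even.Ab w v) →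
      w.valuation E ((t : E) - 1) < w.valuation E (ρ w : E) := by
    intro w hw
    have h1 := (ht (be w) (hwS w hw)).2 w (hbe w)
    have h2 : w.valuation E ((e (be w) : E) - 1) < w.valuation E (ρ w : E) := by
      rcases hw with hw | ⟨v, hv, hw⟩
      · exact he3 (be w) w hw (hbe w)
      · have hvV : be w ∉ V := by
          rw [hbe' hw]
          exact fun h => Set.disjoint_left.mp hVA h hv
        rw [he1 (be w) hvV, Units.val_one, sub_self, map_zero]
        exact zero_lt_iff.mpr ((Valuation.ne_zero_iff _).mpr (ρ w).ne_zero)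
    have h3 := close_mul (w.valuation E) (hρ1 w) h1 h2
    rwa [← Units.val_mul, div_mul_cancel] at h3
  -- approximation of `n` by a global norm
  obtain ⟨z, hz, hnz⟩ := near_norm (M.map E) (io F E a) n hAf (fun w hw =>
    mem_LL.mp hn w ⟨be w, hwS w hw, hbe w⟩) ρ
  refine ⟨(ε * z)⁻¹, ?_, fun w hw => ?_⟩
  · have e1 : x / nrm F E (ε * z)⁻¹ = (x * nrm F E ε) * nrm F E z := by
      rw [map_inv, div_inv_eq_mul, map_mul, mul_assoc]
    rw [e1]
    refine Subgroup.mul_mem _ (hasse_norm M a _ fun v => ?_) (nrm_mem_NF M hz)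
    by_cases hv : v ∈ S
    · have e2 : x * nrm F E ε = x * nrm F E t / nrm F E n := by
        rw [← hεn, map_mul, ← mul_assoc, mul_div_cancel_right]
      rw [e2]
      exact Subgroup.div_mem _ (mem_LL.mp hxt v hv)
        (nrm_local M v a n fun w hw => mem_LL.mp hn w ⟨v, hv, hw⟩)
    · refine unit_norm v (Pr.val_p hSg.pr hv) a _ (hSg.unit v hv) ?_
      rw [Units.val_mul, map_mul, val_nrm_eq_one v ε, mul_one]
      · exact hxS v hv
      · intro w hw
        refine hε w ?_
        rintro ⟨v', hv', h⟩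
        have : v = v' := HeightOneSpectrum.ext (hw.symm.trans h)
        exact hv (this ▸ hv')
  · have h2 := hnz w hw
    have h3 := close_mul (w.valuation E) (hρ1 w) (htw w hw) (close_inv (w.valuation E) (hρ1 w) h2)
    have h4 := close_inv (w.valuation E) (hρ1 w) h3
    have e1 : (((ε * z)⁻¹ : Eˣ) : E) = ((t : E) * ((n / z : Eˣ) : E)⁻¹)⁻¹ := by
      rw [Units.val_inv_eq_inv_val, ← hεn, Units.val_div_eq_div_val]
      have hn0 : (n : E) ≠ 0 := n.ne_zero
      have hz0 : (z : E) ≠ 0 := z.ne_zero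
      congr 1
      push_cast
      field_simp
    rw [e1]
    exact h4.trans_le (hρ2 w)

/-- **The two-field norm lemma**, with approximation at places of `E`. -/
theorem two_norm3 {p : ℕ} (hp : p.Prime) (hp2 : p ≠ 2) {R R' : Type} [Field R] [NumberField R]
    [Field R'] [NumberField R'] [Algebra R R'] [IsGalois R R'] (hdeg : finrank R R' = p) {ζ : R}
    (hζ : IsPrimitiveRoot ζ p) (A : Finset (HeightOneSpectrum (𝓞 R))) :
    ∃ v0 : HeightOneSpectrum (𝓞 R), v0 ∉ A ∧
      ∀ c : HeightOneSpectrum (𝓞 R) → R, (∀ v ∈ A, c v ≠ 0 ∧ v.valuation R (c v) ≤ 1) →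
      ∀ x : R, x ≠ 0 →
        (∀ v ∈ A, v.valuation R (x - 1) < v.valuation R ((p : R) ^ 2 * c v)) →
      ∃ V : Finset (HeightOneSpectrum (𝓞 R)), Disjoint V A ∧
        ∀ (E : Type) [Field E] [NumberField E] [Algebra R E],
          Nonempty (E →ₐ[R] v0.adicCompletion R) →
          ∀ (σ : ∀ v : HeightOneSpectrum (𝓞 R), v ∈ V → (E →ₐ[R] v.adicCompletion R))
            (A2 : Finset (HeightOneSpectrum (𝓞 E))),
          (∀ w ∈ A2, ∀ (v : HeightOneSpectrum (𝓞 R)) (hv : v ∈ V),
            w.asIdeal.comap (algebraMap (𝓞 R) (𝓞 E)) = v.asIdeal → NotPl (σ v hv) w) →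
          ∀ g : HeightOneSpectrum (𝓞 E) → E, (∀ w, g w ≠ 0) →
          ∃ (x1 : R') (y : E), y ≠ 0 ∧ x = Algebra.norm R x1 * Algebra.norm R y ∧
            (∀ v ∈ A, ∀ w : HeightOneSpectrum (𝓞 R'),
              w.asIdeal.comap (algebraMap (𝓞 R) (𝓞 R')) = v.asIdeal →
                w.valuation R' (x1 - 1) < w.valuation R' (algebraMap R R' (c v))) ∧
            (∀ w : HeightOneSpectrum (𝓞 E), (w ∈ A2 ∨ ∃ v ∈ A,
              w.asIdeal.comap (algebraMap (𝓞 R) (𝓞 E)) = v.asIdeal) →
                w.valuation E (y - 1) < w.valuation E (g w)) := by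
  classical
  obtain ⟨M, a, θ, σ', Q, -⟩ := exists_kd hp hp2 hdeg
    (hζ.map_of_injective (algebraMap R R').injective)
  obtain ⟨v0, hv0, hmain⟩ := two_norm_kd3 M Q.ns A.finite_toSet
  refine ⟨v0, fun h => hv0 (Finset.mem_coe.mpr h), fun c hc x hx0 hx => ?_⟩
  have hpR : ((p : R)) ≠ 0 := M.p_ne_zero
  have hpv : ∀ v : HeightOneSpectrum (𝓞 R), v.valuation R (p : R) ≤ 1 := fun v => val_nat_le _ p
  have hplp : ∀ v : HeightOneSpectrum (𝓞 R), v.valuation R ((p : R) ^ 2) ≤
      v.valuation R (M.l ^ p) := by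
    intro v
    rw [map_pow, M.val_p, map_pow, ← pow_mul]
    refine pow_le_pow_right_of_le_one' (M.val_l_le _) ?_
    have := hp.two_le
    omega
  -- the bad places
  have hfin : {v : HeightOneSpectrum (𝓞 R) |
      Units.mk0 x hx0 ∉ NF M a ⊔ LS M (v.valuation R)}.Finite := by
    refine (((finite_ne_one (Units.mk0 x hx0)).union (finite_ne_one a)).union
      (finite_ne_one (Units.mk0 (p : R) hpR))).subset fun v hv => ?_
    by_contra hcon
    simp only [Set.mem_union, Set.mem_ofPred_eq, not_or, not_not] at hcon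
    exact hv (unit_norm v hcon.2 a _ hcon.1.2 hcon.1.1)
  have hdisj : ∀ v ∈ hfin.toFinset, v ∉ A := by
    intro v hv hvA
    rw [hfin.mem_toFinset] at hv
    refine hv (Subgroup.mem_sup_right (LS_of_close ?_))
    refine (hx v hvA).trans_le ?_
    rw [map_mul]
    calc _ ≤ v.valuation R ((p : R) ^ 2) * 1 := mul_le_mul' le_rfl (hc v hvA).2
      _ ≤ _ := by rw [mul_one]; exact hplp v
  refine ⟨hfin.toFinset, Finset.disjoint_left.mpr hdisj, fun E _ _ _ hhom σ A2 hσ g hg => ?_⟩
  have hfd : FiniteDimensional R E := Module.Finite.of_restrictScalars_finite ℚ R E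
  choose be hbe using fun w : HeightOneSpectrum (𝓞 E) => exists_below (F := R) w
  have hbe' : ∀ {v : HeightOneSpectrum (𝓞 R)} {w : HeightOneSpectrum (𝓞 E)},
      Even.Ab w v → be w = v := fun h => below_unique (hbe _) h
  -- radii for the norm of `y`
  have hη : ∀ v : HeightOneSpectrum (𝓞 R), ∃ η : Rˣ, v ∈ A → ∀ y : E,
      (∀ w : HeightOneSpectrum (𝓞 E), Even.Ab w v →
        w.valuation E (y - 1) < w.valuation E (algebraMap R E η)) →
      v.valuation R (Algebra.norm R y - 1) < v.valuation R ((p : R) * c v) := by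
    intro v
    by_cases hv : v ∈ A
    · obtain ⟨η, hη⟩ := Even.norm_near_one (E := E) v
        (Units.mk0 ((p : R) * c v) (mul_ne_zero hpR (hc v hv).1)) (by
          rw [Units.val_mk0, map_mul]
          exact mul_le_one' (hpv v) (hc v hv).2)
      exact ⟨η, fun _ => hη⟩
    · exact ⟨1, fun h => absurd h hv⟩
  choose η hη using hη
  have hg' : ∀ w : HeightOneSpectrum (𝓞 E), ∃ r : Eˣ,
      w.valuation E (r : E) ≤ w.valuation E (g w) ∧
        w.valuation E (r : E) ≤ w.valuation E (algebraMap R E (η (be w) : R)) := by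
    intro w
    rcases le_total (w.valuation E (g w)) (w.valuation E (algebraMap R E (η (be w) : R)))
      with h | h
    · exact ⟨Units.mk0 (g w) (hg w), le_rfl, h⟩
    · exact ⟨io R E (η (be w)), h, le_rfl⟩
  choose r hr1 hr2 using hg'
  obtain ⟨y, hy1, hy2⟩ := hmain (Units.mk0 x hx0) (hfin.toFinset : Set _)
    (Finset.finite_toSet _) (by
      rw [Set.disjoint_left]
      exact fun v hv hvA => hdisj v (Finset.mem_coe.mp hv) (Finset.mem_coe.mp hvA)) (by
      intro v hv
      by_contra h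
      exact hv (Finset.mem_coe.mpr (hfin.mem_toFinset.mpr h))) E hhom
    (fun v hv => σ v (Finset.mem_coe.mp hv)) (A2 : Set _) A2.finite_toSet
    (fun w hw v hv hwv => hσ w (Finset.mem_coe.mp hw) v (Finset.mem_coe.mp hv) hwv) r
  obtain ⟨e0, he0⟩ := norm_of_mem_NF Q hy1
  have hb : ∀ v ∈ (A : Set (HeightOneSpectrum (𝓞 R))),
      v.valuation R (((Units.mk0 x hx0 / nrm R E y : Rˣ) : R) - 1) <
        v.valuation R ((p : R) * c v) := by
    intro v hvA
    have hvA' := Finset.mem_coe.mp hvA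
    have h1 : v.valuation R (Algebra.norm R (y : E) - 1) < v.valuation R ((p : R) * c v) := by
      refine hη v hvA' (y : E) fun w hw => ?_
      have h3 := hr2 w
      rw [hbe' hw] at h3
      exact (hy2 w (Or.inr ⟨v, hvA, hw⟩)).trans_le h3
    have h2 : v.valuation R (x - 1) < v.valuation R ((p : R) * c v) := by
      refine (hx v hvA').trans_le ?_
      rw [map_mul, map_mul, map_pow, pow_two]
      refine mul_le_mul' ?_ le_rfl
      exact mul_le_of_le_one_left' (hpv v)
    have hle : v.valuation R ((p : R) * c v) ≤ 1 := by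
      rw [map_mul]
      exact mul_le_one' (hpv v) (hc v hvA').2
    have h3 := close_mul (v.valuation R) hle h2 (close_inv (v.valuation R) hle h1)
    rw [Units.val_div_eq_div_val, Units.val_mk0, nrm_val, div_eq_mul_inv]
    exact h3
  obtain ⟨x1, hx1, hx2⟩ := H511.norm_approx_prime hp hp2 hdeg he0
    (S := (A : Set (HeightOneSpectrum (𝓞 R)))) A.finite_toSet c
    (fun v hv => hc v (Finset.mem_coe.mp hv)) hb
  refine ⟨x1, (y : E), y.ne_zero, ?_, fun v hv w hw => hx2 v (Finset.mem_coe.mpr hv) w hw,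
    fun w hw => ?_⟩
  · have hNy : Algebra.norm R (y : E) ≠ 0 := Algebra.norm_ne_zero_iff.mpr y.ne_zero
    rw [hx1, Units.val_div_eq_div_val, Units.val_mk0, nrm_val, div_mul_cancel₀ _ hNy]
  · exact (hy2 w (hw.imp Finset.mem_coe.mpr fun ⟨v, hv, h⟩ =>
      ⟨v, Finset.mem_coe.mpr hv, h⟩)).trans_le (hr1 w)

end Vale.Agent.P011.H929
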